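import Crest.Agent.N337.A.Defs
import Crest.Agent.N337.LY.Pres
import Crest.Agent.N337.A.Sup
import Crest.Agent.N337.A.Cond
import Crest.Agent.N337.Gas.Loop

-- ▼ part N337/A/LYd
section

/-!
# Row 337, block (a): Lee–Yang in the disc, `lyd : LYdStmt` (helper35)
-/

set_option autoImplicit false
set_option linter.unusedSectionVars false

namespace Crest.Agent.N337.A

open Finset Equiv Matrix Crest.Agent.N337.Rep Crest.Agent.N337.Slot Crest.Agent.N337.LY

namespace Ld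

section trace
variable {ι : Type} [Fintype ι] [DecidableEq ι]

lemma prod_ofFn_apply (n : ℕ) : ∀ (A : Fin (n + 1) → Matrix ι ι ℂ) (i j : ι),
    (List.ofFn A).reverse.prod i j = ∑ η : Fin n → ι, ∏ s : Fin (n + 1),
      A s ((Fin.snoc η i : Fin (n + 1) → ι) s) ((Fin.cons j η : Fin (n + 1) → ι) s) := by
  induction n with
  | zero =>
    intro A i j
    simp [Fin.snoc]
  | succ n ih =>
    intro A i j
    rw [List.ofFn_succ, List.reverse_cons, List.prod_append, List.prod_singleton, Matrix.mul_apply,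
      ← (Fin.consEquiv fun _ : Fin (n + 1) => ι).sum_comp, Fintype.sum_prod_type]
    refine sum_congr rfl fun k _ => ?_
    rw [ih, sum_mul]
    refine sum_congr rfl fun η _ => ?_
    rw [Fin.prod_univ_succ (n := n + 1), mul_comm]
    have e : (Fin.snoc ((Fin.consEquiv fun _ : Fin (n + 1) => ι) (k, η)) i : Fin (n + 2) → ι) =
        Fin.cons k (Fin.snoc η i) := (Fin.cons_snoc_eq_snoc_cons k η i).symm
    rw [e]
    simp only [Fin.consEquiv_apply, Fin.cons_zero, Fin.cons_succ]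

lemma trace_ofFn {T : ℕ} [NeZero T] (A : Fin T → Matrix ι ι ℂ) :
    ((List.ofFn A).reverse.prod).trace = ∑ η : Fin T → ι, ∏ s, A s (η (s + 1)) (η s) := by
  obtain ⟨n, rfl⟩ : ∃ n, T = n + 1 := Nat.exists_eq_succ_of_ne_zero (NeZero.ne T)
  rw [Matrix.trace, ← (Fin.consEquiv fun _ : Fin (n + 1) => ι).sum_comp, Fintype.sum_prod_type]
  refine sum_congr rfl fun j _ => ?_
  rw [Matrix.diag_apply, prod_ofFn_apply]
  refine sum_congr rfl fun η _ => prod_congr rfl fun s _ => ?_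
  simp only [Fin.consEquiv_apply]
  congr 1
  refine Fin.lastCases ?_ (fun t => ?_) s
  · simp
  · simp

lemma conj_ofFn (H : Matrix ι ι ℂ) (n : ℕ) : ∀ A B : Fin n → Matrix ι ι ℂ,
    (∀ s, A s * H = H * B s) → (List.ofFn A).reverse.prod * H = H * (List.ofFn B).reverse.prod := by
  induction n with
  | zero => intro A B _; simp
  | succ n ih =>
    intro A B h
    simp only [List.ofFn_succ, List.reverse_cons, List.prod_append, List.prod_singleton]
    rw [Matrix.mul_assoc, h, ← Matrix.mul_assoc, ih _ _ fun s => h s.succ, Matrix.mul_assoc]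

end trace

variable {Λ : Type} [Fintype Λ] [DecidableEq Λ]

lemma pres_ofFn (n : ℕ) : ∀ A : Fin n → COp Λ, (∀ s, Pres (A s)) →
    Pres (List.ofFn A).reverse.prod := by
  induction n with
  | zero => intro A _; simpa using pres_one
  | succ n ih =>
    intro A h
    simp only [List.ofFn_succ, List.reverse_cons, List.prod_append, List.prod_singleton]
    exact (ih _ fun s => h s.succ).mul (h 0)

lemma tc_mul (A B : Λ → Bool → Bool → ℂ) :
    tc A * tc B = tc fun x i j => ∑ k, A x i k * B x k j := by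
  ext σ τ
  rw [tc, tc, tc, of_apply, Finset.prod_univ_sum]
  simp only [Matrix.mul_apply, of_apply, Fintype.piFinset_univ, Finset.prod_mul_distrib]

lemma tc_diag (a : Λ → ℂ) : (tc fun x i j => if i = j then (if j = true then a x else 1) else 0) =
    diagonal (ket a) := by
  ext σ τ
  rw [tc, of_apply, diagonal_apply]
  split_ifs with h
  · subst h; simp [ket]
  · obtain ⟨x, hx⟩ := Function.ne_iff.1 h
    exact prod_eq_zero (mem_univ x) (if_neg hx)

/-- the Hadamard matrix at every slot -/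
def Hd (c : ℂ) : COp Λ := tc fun _ i j => if i = true ∧ j = true then -c else c

/-- the conjugate of a diagonal weight -/
noncomputable def Eh (a : Λ → ℂ) : COp Λ :=
  tc fun x i j => if i = j then (1 + a x) / 2 else (1 - a x) / 2

lemma Hd_mul {c c' : ℂ} (h : 2 * (c * c') = 1) : (Hd c * Hd c' : COp Λ) = 1 := by
  have h1 : (diagonal (ket fun _ => 1) : COp Λ) = 1 := by
    rw [← diagonal_one]; congr 1; funext σ; simp [ket]
  rw [Hd, Hd, tc_mul, ← h1, ← tc_diag]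
  congr 1
  funext x i j
  cases i <;> cases j <;> simp <;> linear_combination h

lemma diag_Hd (a : Λ → ℂ) : diagonal (ket a) * Hd 1 = Hd 1 * Eh a := by
  rw [← tc_diag, Hd, Eh, tc_mul, tc_mul]
  congr 1
  funext x i j
  cases i <;> cases j <;> simp <;> ring

lemma Eh_mul (a b : Λ → ℂ) : Eh a * Eh b = Eh fun x => a x * b x := by
  rw [Eh, Eh, Eh, tc_mul]
  congr 1
  funext x i j
  cases i <;> cases j <;> simp <;> ring

lemma step_Hd (x y : Λ) (p : ℝ) : cm (step x y p) * Hd 1 = Hd 1 * cm (step x y p) := by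
  have h : cm (swp x y) * Hd 1 = (Hd 1 * cm (swp x y) : COp Λ) := by
    ext σ τ
    have h1 : (cm (swp x y) * Hd 1 : COp Λ) σ τ = Hd 1 (σ ∘ Equiv.swap x y) τ :=
      congrFun (swp_mulVec x y fun ρ => Hd 1 ρ τ) σ
    rw [h1, Matrix.mul_apply, Finset.sum_eq_single (τ ∘ Equiv.swap x y)]
    · simp only [cm_apply, swp, of_apply, if_true, Complex.ofReal_one, mul_one, Hd, tc]
      exact Fintype.prod_equiv (Equiv.swap x y) _ _ fun z => by simp
    · intro ρ _ h; simp [cm_apply, swp, h]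
    · simp
  rw [step, map_add, cm_smul, cm_smul, map_one, Matrix.add_mul, Matrix.mul_add, Matrix.smul_mul,
    Matrix.smul_mul, Matrix.mul_smul, Matrix.mul_smul, h, Matrix.one_mul, Matrix.mul_one]

lemma moeb {α β : ℂ} (h : Complex.normSq β < Complex.normSq α) :
    α + β ≠ 0 ∧ 0 < ((α - β) / (α + β)).re := by
  have h0 : α + β ≠ 0 := fun e => by
    rw [eq_neg_of_add_eq_zero_left e, Complex.normSq_neg] at h
    exact lt_irrefl _ h
  refine ⟨h0, ?_⟩
  rw [Complex.div_re, ← add_div]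
  refine div_pos ?_ (Complex.normSq_pos.2 h0)
  simp only [Complex.normSq_apply] at h
  simp only [Complex.add_re, Complex.sub_re, Complex.add_im, Complex.sub_im]
  linarith

lemma pres_Eh {a : Λ → ℂ} (ha : ∀ x, ‖a x‖ ≤ 1) : Pres (Eh a) := by
  refine pres_of_map fun v hv => ?_
  have h : ∀ x, Complex.normSq (a x * (1 - v x)) < Complex.normSq (1 + v x) := fun x => by
    have h1 : Complex.normSq (a x) ≤ 1 := by
      rw [Complex.normSq_eq_norm_sq]; exact pow_le_one₀ (norm_nonneg _) (ha x)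
    have h2 : Complex.normSq (1 - v x) < Complex.normSq (1 + v x) := by
      have := hv x
      simp only [Complex.normSq_apply, Complex.add_re, Complex.sub_re, Complex.add_im,
        Complex.sub_im, Complex.one_re, Complex.one_im]
      linarith
    rw [map_mul]
    exact (mul_le_of_le_one_left (Complex.normSq_nonneg _) h1).trans_lt h2
  refine ⟨∏ x, (1 + v x + a x * (1 - v x)) / 2, _, prod_ne_zero_iff.2 fun x _ =>
    div_ne_zero (moeb (h x)).1 two_ne_zero, fun x => (moeb (h x)).2, ?_⟩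
  refine (tc_mulVec _ fun x j => if j = true then v x else 1).trans ?_
  funext σ
  simp only [Pi.smul_apply, smul_eq_mul, ket, ← Finset.prod_mul_distrib]
  refine Finset.prod_congr rfl fun x _ => ?_
  have := (moeb (h x)).1
  cases σ x
  · simp; ring
  · simp; field_simp; ring

variable {T : ℕ} [NeZero T]

open Classical in
lemma trace_eq (ex ey : Fin T → Λ) (p : Fin T → ℝ) (w : Fin T × Λ → ℂ) :
    ((List.ofFn fun s => cm (step (ex s) (ey s) (p s)) *
      diagonal (ket fun x => w (s, x))).reverse.prod).trace =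
    ∑ ξ, ∑ n : Fin T × Λ → Bool, if Cl ex ey ξ n then (Pw p ξ : ℂ) *
      ∏ v, if n v = true then w v else 1 else 0 := by
  rw [trace_ofFn, sum_comm, ← (Equiv.curry (Fin T) Λ Bool).sum_comp]
  refine sum_congr rfl fun n _ => ?_
  have h1 : ∀ (s : Fin T) (η D : Λ → Bool), (cm (step (ex s) (ey s) (p s)) *
      diagonal (ket fun x => w (s, x)) : COp Λ) η D = ∑ b : Bool, (wb (p s) b : ℂ) *
        (ket (fun x => w (s, x)) D * if η = D ∘ sg (ex s) (ey s) b then 1 else 0) := by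
    intro s η D
    rw [mul_diagonal, cm_apply, step, Fintype.sum_bool]
    simp only [Matrix.add_apply, Matrix.smul_apply, smul_eq_mul, swp, of_apply, one_apply, wb, sg,
      if_true, Bool.false_eq_true, if_false, Perm.coe_one, Function.comp_id]
    split_ifs <;> push_cast <;> ring
  simp only [h1]
  rw [Fintype.prod_sum]
  refine sum_congr rfl fun ξ _ => ?_
  have h2 : (∀ s, (Equiv.curry (Fin T) Λ Bool) n (s + 1) =
      (Equiv.curry (Fin T) Λ Bool) n s ∘ sg (ex s) (ey s) (ξ s)) ↔ Cl ex ey ξ n := by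
    refine ⟨fun h v => ?_, fun h s => funext fun x => ?_⟩
    · have := congrFun (h v.1) (sg (ex v.1) (ey v.1) (ξ v.1) v.2)
      rw [Function.comp_apply, sg_sg] at this
      exact this
    · have := h (s, sg (ex s) (ey s) (ξ s) x)
      rw [Sg_apply, sg_sg] at this
      exact this
  rw [prod_mul_distrib, prod_mul_distrib, prod_boole]
  simp only [mem_univ, true_imp_iff, h2, mul_ite, mul_one, mul_zero]
  rw [Pw, Complex.ofReal_prod, Fintype.prod_prod_type]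
  rfl

end Ld

open Ld in
theorem lyd : LYdStmt := by
  intro Λ _ _ T _ ex ey M y hM l hl
  set w : Fin T × Λ → ℂ := fun v => (if v.1 = 0 then l else 1) * (M.b v : ℂ) with hw
  have h1 := conj_ofFn (Hd 1) T
    (fun s => cm (step (ex s) (ey s) (M.p s)) * diagonal (ket fun x => w (s, x)))
    (fun s => cm (step (ex s) (ey s) (M.p s)) * Eh fun x => w (s, x)) fun s => by
      rw [Matrix.mul_assoc, diag_Hd, ← Matrix.mul_assoc, step_Hd, Matrix.mul_assoc]
  have h2 := congrArg (fun X => (X * Hd 2⁻¹).trace) h1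
  simp only [Matrix.mul_assoc] at h2
  rw [Hd_mul (by norm_num), Matrix.mul_one, trace_eq, trace_mul_comm, Matrix.mul_assoc,
    Hd_mul (by norm_num), Matrix.mul_one] at h2
  refine ne_of_eq_of_ne h2 ?_
  obtain ⟨n, rfl⟩ : ∃ n, T = n + 1 := Nat.exists_eq_succ_of_ne_zero (NeZero.ne T)
  set t : ℝ := max (‖l‖ * y) (1 / 2) with ht
  have ht0 : 0 < t := lt_max_of_lt_right (by norm_num)
  have ht1 : t < 1 := max_lt hl (by norm_num)
  have h3 : (Eh fun x => w (0, x)) = Eh (fun x => w (0, x) / t) * tc fun _ => xi t := by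
    refine Eq.trans ?_ (Eh_mul _ fun _ => (t : ℂ)).symm
    congr 1
    funext x
    rw [div_mul_cancel₀ _ (Complex.ofReal_ne_zero.2 ht0.ne')]
  have hs : ∀ s, Pres (cm (step (ex s) (ey s) (M.p s))) := fun s =>
    pres_step _ _ (hM.1 s).1 (hM.1 s).2
  rw [List.ofFn_succ, List.reverse_cons, List.prod_append, List.prod_singleton, h3,
    ← Matrix.mul_assoc, ← Matrix.mul_assoc]
  refine trace_xi_ne (((pres_ofFn n _ fun s => (hs _).mul (pres_Eh fun x => ?_)).mul (hs 0)).mul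
    (pres_Eh fun x => ?_)) ht0.le ht1
  · simp only [hw, if_neg (Fin.succ_ne_zero s), one_mul, Complex.norm_real, Real.norm_eq_abs]
    exact abs_le.2 ⟨by linarith [(hM.2.1 (s.succ, x)).1], (hM.2.1 _).2⟩
  · simp only [hw, if_true, norm_div, norm_mul, Complex.norm_real, Real.norm_eq_abs,
      abs_of_pos ht0, abs_of_nonneg (hM.2.1 _).1]
    exact (div_le_one ht0).2 ((mul_le_mul_of_nonneg_left (hM.2.2 x) (norm_nonneg _)).trans
      (le_max_left _ _))

end Crest.Agent.N337.A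
end

-- ▼ part N337/A/Circ
section

/-!
# Row 337, block (a): from the small disc to `l = 1` (helper48)
-/

set_option autoImplicit false

namespace Crest.Agent.N337.A

open Polynomial Metric Set

namespace Ci

/-- logarithmic derivative -/
noncomputable def ld (P : ℂ[X]) (l : ℂ) : ℂ := P.derivative.eval l / P.eval l

lemma ld_le {P : ℂ[X]} {R r : ℝ} (hP : ∀ l, ‖l‖ < R → P.eval l ≠ 0) (hr : r < R) {l : ℂ}
    (hl : ‖l‖ ≤ r) : ‖ld P l‖ ≤ P.natDegree * (R - r)⁻¹ := by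
  have h0 := sub_pos.2 hr
  rw [ld, (IsAlgClosed.splits P).eval_derivative_div_eval_of_ne_zero (hP l (hl.trans_lt hr))]
  refine (norm_multiset_sum_le _).trans
    ((Multiset.sum_le_card_nsmul _ (R - r)⁻¹ fun x hx => ?_).trans ?_)
  · simp only [Multiset.map_map, Multiset.mem_map, Function.comp] at hx
    obtain ⟨z, hz, rfl⟩ := hx
    have h1 : R ≤ ‖z‖ := not_lt.1 fun e => hP z e (isRoot_of_mem_roots hz)
    have h2 := norm_sub_norm_le z l
    rw [one_div, norm_inv, norm_sub_rev]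
    exact inv_anti₀ h0 (by linarith)
  · rw [Multiset.card_map, Multiset.card_map, nsmul_eq_mul]
    exact mul_le_mul_of_nonneg_right (Nat.cast_le.2 P.card_roots') (inv_pos.2 h0).le

lemma annulus {g : ℂ → ℂ} {ρ r C : ℝ} {m : ℕ} (hρ : 0 < ρ)
    (hg : ∀ l, ‖l‖ ≤ r → DifferentiableAt ℂ g l) (h1 : ∀ l, ‖l‖ = ρ → ‖g l‖ ≤ C * ‖l‖ ^ m)
    (h2 : ∀ l, ‖l‖ = r → ‖g l‖ ≤ C * ‖l‖ ^ m) {l : ℂ} (hl1 : ρ < ‖l‖) (hl2 : ‖l‖ < r) :
    ‖g l‖ ≤ C * ‖l‖ ^ m := by
  have hc : closure ({z : ℂ | ρ < ‖z‖} ∩ {z | ‖z‖ < r}) ⊆ {z | ρ ≤ ‖z‖} ∩ {z | ‖z‖ ≤ r} :=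
    closure_minimal (fun z hz => ⟨le_of_lt (a := ρ) hz.1, le_of_lt (b := r) hz.2⟩)
      ((isClosed_le continuous_const continuous_norm).inter
        (isClosed_le continuous_norm continuous_const))
  have key : ∀ z : ℂ, ρ ≤ ‖z‖ → (‖g z / z ^ m‖ ≤ C ↔ ‖g z‖ ≤ C * ‖z‖ ^ m) := fun z hz => by
    rw [norm_div, norm_pow, div_le_iff₀ (pow_pos (hρ.trans_le hz) m)]
  refine (key l hl1.le).1 (Complex.norm_le_of_forall_mem_frontier_norm_le
    (f := fun z => g z / z ^ m) (U := {z : ℂ | ρ < ‖z‖} ∩ {z | ‖z‖ < r})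
    ((isBounded_ball (x := 0) (r := r)).subset fun z hz => mem_ball_zero_iff.2 hz.2)
    (DifferentiableOn.diffContOnCl fun z hz => ?_) (fun z hz => ?_) (subset_closure ⟨hl1, hl2⟩))
  · exact ((hg z (hc hz).2).div (differentiableAt_pow m) (pow_ne_zero m
      (norm_pos_iff.1 (hρ.trans_le (hc hz).1)))).differentiableWithinAt
  · refine (key z (hc (frontier_subset_closure hz)).1).2 ?_
    rcases frontier_inter_subset _ _ hz with e | e
    · exact h1 z (frontier_lt_subset_eq continuous_const continuous_norm e.1).symm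
    · exact h2 z (frontier_lt_subset_eq continuous_norm continuous_const e.2)

lemma core {P1 P2 : ℂ[X]} {N m : ℕ} {Tf ε δ : ℝ} (hN : 1 ≤ N) (hT : 1 ≤ Tf)
    (d1 : P1.natDegree ≤ 2 * N) (d2 : P2.natDegree ≤ 2 * N)
    (z1 : ∀ l, ‖l‖ < Real.exp (1 / Tf) → P1.eval l ≠ 0)
    (z2 : ∀ l, ‖l‖ < Real.exp (1 / Tf) → P2.eval l ≠ 0) (e1 : P1.eval 0 = 1) (e2 : P2.eval 0 = 1)
    (lo : ∀ l : ℂ, 8 * N * ‖l‖ ≤ 1 → 9 / 16 ≤ ‖P2.eval l‖)
    (cl : ∀ l : ℂ, 8 * N * ‖l‖ ≤ 1 → ‖P1.eval l - P2.eval l‖ ≤ ε) (hε : ε ≤ 1 / 8)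
    (hδ1 : 200 * N * ε * (16 * N) ^ m ≤ δ) (hδ2 : 16 * N * Tf * Real.exp (-m / (2 * Tf)) ≤ δ) :
    ‖P1.eval 1‖ ≤ Real.exp δ * ‖P2.eval 1‖ := by
  have hN' : (1 : ℝ) ≤ N := Nat.one_le_cast.2 hN
  have hε0 : 0 ≤ ε := (norm_nonneg _).trans (cl 0 (by simp))
  have hδ0 : 0 ≤ δ := le_trans (by positivity) hδ1
  have hr1 : 1 / (2 * Tf) + 1 ≤ Real.exp (1 / (2 * Tf)) := Real.add_one_le_exp _
  have hRr : Real.exp (1 / Tf) = Real.exp (1 / (2 * Tf)) * Real.exp (1 / (2 * Tf)) := by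
    rw [← Real.exp_add]; congr 1; field_simp; norm_num
  have hm : Real.exp (-m / (2 * Tf)) * Real.exp (1 / (2 * Tf)) ^ m = 1 := by
    rw [← Real.exp_nat_mul, ← Real.exp_add, Real.exp_eq_one_iff]; ring
  have ht : 0 < 1 / (2 * Tf) := by positivity
  generalize Real.exp (1 / (2 * Tf)) = r at hr1 hRr hm
  generalize Real.exp (1 / Tf) = R at z1 z2 hRr
  have hr : 1 < r := by linarith
  have hgap : 1 / (2 * Tf) ≤ R - r := by nlinarith
  have hrR : r < R := by linarith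
  have hd : ∀ l : ℂ, ‖l‖ < R → HasDerivAt (fun w => P1.eval w / P2.eval w)
      ((ld P1 l - ld P2 l) * (P1.eval l / P2.eval l)) l := fun l hl => by
    have a1 := z1 l hl
    have a2 := z2 l hl
    refine ((P1.hasDerivAt l).div (P2.hasDerivAt l) a2).congr_deriv ?_
    rw [ld, ld]
    field_simp
  have hsm : ∀ l : ℂ, 8 * N * ‖l‖ ≤ 1 → ‖l‖ < R := fun l hl => by nlinarith [norm_nonneg l]
  have hh : ∀ l : ℂ, 8 * N * ‖l‖ ≤ 1 → ‖P1.eval l / P2.eval l - 1‖ ≤ 2 * ε := fun l hl => by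
    have a2 := z2 l (hsm l hl)
    rw [div_sub_one a2, norm_div, div_le_iff₀ (norm_pos_iff.2 a2)]
    nlinarith [cl l hl, lo l hl]
  have hρ : (0 : ℝ) < (16 * N : ℝ)⁻¹ := by positivity
  have hin : ∀ l : ℂ, ‖l‖ ≤ (16 * N : ℝ)⁻¹ → ‖ld P1 l - ld P2 l‖ ≤ 200 * N * ε := fun l hl => by
    have hb : ∀ w ∈ closedBall l (16 * N : ℝ)⁻¹, 8 * N * ‖w‖ ≤ 1 := fun w hw => by
      have a1 := norm_le_norm_add_norm_sub' w l
      have a2 := mem_closedBall_iff_norm.1 hw
      calc 8 * N * ‖w‖ ≤ 8 * N * (2 * (16 * N : ℝ)⁻¹) := by gcongr; linarith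
        _ = 1 := by field_simp; norm_num
    have hl' := hb l (mem_closedBall_self hρ.le)
    have a1 := Complex.norm_deriv_le_of_forall_mem_sphere_norm_le
      (f := fun w => P1.eval w / P2.eval w - 1) hρ
      (DifferentiableOn.diffContOnCl fun w hw => ((hd w (hsm w (hb w
        (closure_ball_subset_closedBall hw)))).sub_const 1).differentiableAt.differentiableWithinAt)
      fun w hw => hh w (hb w (sphere_subset_closedBall hw))
    rw [((hd l (hsm l hl')).sub_const 1).deriv, norm_mul, div_inv_eq_mul] at a1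
    have a2 := norm_sub_norm_le 1 (P1.eval l / P2.eval l)
    rw [norm_one, norm_sub_rev] at a2
    have a3 : 3 / 4 ≤ ‖P1.eval l / P2.eval l‖ := by linarith [hh l hl']
    nlinarith [mul_le_mul_of_nonneg_left a3 (norm_nonneg (ld P1 l - ld P2 l)),
      mul_nonneg (zero_le_one.trans hN') hε0]
  have hall : ∀ l : ℂ, ‖l‖ ≤ 1 → ‖ld P1 l - ld P2 l‖ ≤ δ := fun l hl => by
    rcases le_or_gt ‖l‖ (16 * N : ℝ)⁻¹ with e | e
    · exact (hin l e).trans (le_trans (le_mul_of_one_le_right (by positivity)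
        (one_le_pow₀ (by linarith))) hδ1)
    refine (annulus (g := fun l => ld P1 l - ld P2 l) (m := m) (C := δ) hρ (fun w hw => ?_)
      (fun w hw => ?_) (fun w hw => ?_) e (hl.trans_lt hr)).trans
      (mul_le_of_le_one_right hδ0 (pow_le_one₀ (norm_nonneg _) hl))
    · exact (P1.derivative.differentiableAt.div P1.differentiableAt (z1 w (hw.trans_lt hrR))).sub
        (P2.derivative.differentiableAt.div P2.differentiableAt (z2 w (hw.trans_lt hrR)))
    · refine (hin w hw.le).trans ?_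
      rw [hw, inv_pow, ← div_eq_mul_inv, le_div_iff₀ (by positivity)]
      exact hδ1
    · have b0 : (R - r)⁻¹ ≤ 2 * Tf := by
        rw [← inv_inv (2 * Tf)]
        exact inv_anti₀ (by positivity) (by rwa [← one_div])
      have b1 : ∀ P : ℂ[X], P.natDegree ≤ 2 * N → (∀ l, ‖l‖ < R → P.eval l ≠ 0) →
          ‖ld P w‖ ≤ 2 * N * (2 * Tf) := fun P dP zP =>
        (ld_le zP hrR hw.le).trans (mul_le_mul (by exact_mod_cast dP) b0
          (inv_pos.2 (sub_pos.2 hrR)).le (by positivity))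
      have b2 := mul_le_mul_of_nonneg_right hδ2 (pow_pos (zero_lt_one.trans hr) m).le
      rw [mul_assoc, hm] at b2
      rw [hw]
      refine (norm_sub_le _ _).trans ?_
      nlinarith [b1 P1 d1 z1, b1 P2 d2 z2, mul_nonneg (zero_le_one.trans hN') (zero_le_one.trans hT)]
  have hI : ∀ t ∈ Icc (0 : ℝ) 1, ‖(t : ℂ)‖ ≤ 1 := fun t ht => by
    rw [Complex.norm_real, Real.norm_of_nonneg ht.1]; exact ht.2
  have hD : ∀ t ∈ Icc (0 : ℝ) 1, HasDerivAt (fun s : ℝ => P1.eval (s : ℂ) / P2.eval (s : ℂ)) _ t :=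
    fun t ht => (hd t ((hI t ht).trans_lt (hr.trans hrR))).comp_ofReal
  have G := norm_le_gronwallBound_of_norm_deriv_right_le (δ := 1) (K := δ) (ε := 0)
    (fun t ht => (hD t ht).continuousAt.continuousWithinAt)
    (fun t ht => (hD t (Ico_subset_Icc_self ht)).hasDerivWithinAt) (by simp [e1, e2])
    (fun t ht => by
      rw [norm_mul, add_zero]
      exact mul_le_mul_of_nonneg_right (hall t (hI t (Ico_subset_Icc_self ht))) (norm_nonneg _))
    1 ⟨zero_le_one, le_rfl⟩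
  rwa [gronwallBound_ε0, one_mul, sub_zero, mul_one, Complex.ofReal_one, norm_div,
    div_le_iff₀ (norm_pos_iff.2 (z2 1 (by rw [norm_one]; exact hr.trans hrR)))] at G

end Ci

theorem circ : CircStmt := by
  intro Q z N m Tf ε δ hN hT hd h1 hz hne hlo h0 hcl hε hδ1 hδ2
  have d : ∀ a b c e, (Q a b * Q c e).natDegree ≤ 2 * N := fun a b c e =>
    natDegree_mul_le.trans (by linarith [hd a b, hd c e])
  have nz : ∀ a b c e l, ‖l‖ < Real.exp (1 / Tf) → (Q a b * Q c e).eval l ≠ 0 := fun a b c e l hl => by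
    have : ‖l‖ * Real.exp (-1 / Tf) < 1 := by
      rwa [neg_div, Real.exp_neg, ← div_eq_mul_inv, div_lt_one (Real.exp_pos _)]
    rw [eval_mul]
    exact mul_ne_zero (hne a b l this) (hne c e l this)
  have e0 : ∀ a b c e, (Q a b * Q c e).eval 0 = 1 := fun a b c e => by rw [eval_mul, h0, h0, mul_one]
  have lo : ∀ a b c e (l : ℂ), 8 * N * ‖l‖ ≤ 1 → 9 / 16 ≤ ‖(Q a b * Q c e).eval l‖ :=
    fun a b c e l hl => by
      have k : ∀ i j, 3 / 4 ≤ ‖(Q i j).eval l‖ := fun i j => by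
        have := norm_sub_norm_le 1 ((Q i j).eval l)
        rw [norm_one, norm_sub_rev] at this
        linarith [hlo i j l hl]
      rw [eval_mul, norm_mul]
      nlinarith [k a b, k c e]
  have v : ∀ a b c e, ‖(Q a b * Q c e).eval 1‖ = z a b * z c e := fun a b c e => by
    rw [eval_mul, h1, h1, ← Complex.ofReal_mul, Complex.norm_real,
      Real.norm_of_nonneg (mul_pos (hz a b) (hz c e)).le]
  rw [← v, ← v]
  exact ⟨Ci.core hN hT (d _ _ _ _) (d _ _ _ _) (nz _ _ _ _) (nz _ _ _ _) (e0 _ _ _ _) (e0 _ _ _ _)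
      (lo _ _ _ _) (fun l hl => by rw [eval_mul, eval_mul]; exact hcl l hl) hε hδ1 hδ2,
    Ci.core hN hT (d _ _ _ _) (d _ _ _ _) (nz _ _ _ _) (nz _ _ _ _) (e0 _ _ _ _) (e0 _ _ _ _)
      (lo _ _ _ _) (fun l hl => by rw [eval_mul, eval_mul, norm_sub_rev]; exact hcl l hl) hε hδ1 hδ2⟩

end Crest.Agent.N337.A
end

-- ▼ part N337/A/Clus
section

/-!
# Row 337, block (a): clustering from the Lee–Yang property
-/

set_option autoImplicit false
set_option linter.unusedSectionVars false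

namespace Crest.Agent.N337.A

open Finset Equiv Crest.Agent.N337.Rep Crest.Agent.N337.LY0

variable {Λ : Type} [Fintype Λ] [DecidableEq Λ] {T : ℕ} [NeZero T] {ex ey : Fin T → Λ}
  {κ : Type} [Fintype κ] [DecidableEq κ] {d : Λ → Λ → ℕ} {M : Mdl T Λ}
  {lab : Finset (Fin T × Λ) → κ → ℝ} {y : ℝ}

section ev
variable (hB : BasStmt) (hM : M.Ok y) (hl : Lab lab)
include hB hM

lemma Z_pos : 0 < Z ex ey M := zero_lt_one.trans_le (hB Λ T ex ey M y hM).1

include hl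

lemma wt_nonneg (ω : St T Λ κ) : 0 ≤ wt ex ey M lab ω :=
  ((hB Λ T ex ey M y hM).2.2.2.2 κ lab hl).1 ω

lemma sum_wt : ∑ ω, wt ex ey M lab ω = Z ex ey M := by
  simpa [Z] using ((hB Λ T ex ey M y hM).2.2.2.2 κ lab hl).2 fun _ => 1

lemma Ev_const (c : ℝ) : Ev ex ey M lab (fun _ => c) = c := by
  rw [Ev, ← sum_mul, sum_wt hB hM hl, mul_div_cancel_left₀ _ (Z_pos hB hM).ne']

lemma Ev_mono {F G : St T Λ κ → ℝ} (h : ∀ ω, wt ex ey M lab ω ≠ 0 → F ω ≤ G ω) :
    Ev ex ey M lab F ≤ Ev ex ey M lab G := by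
  refine div_le_div_of_nonneg_right (sum_le_sum fun ω _ => ?_) (Z_pos hB hM).le
  by_cases h0 : wt ex ey M lab ω = 0
  · rw [h0, zero_mul, zero_mul]
  · exact mul_le_mul_of_nonneg_left (h ω h0) (wt_nonneg hB hM hl ω)

lemma Ev_nonneg {F : St T Λ κ → ℝ} (h : ∀ ω, 0 ≤ F ω) : 0 ≤ Ev ex ey M lab F := by
  simpa only [Ev_const hB hM hl] using Ev_mono hB hM hl (F := fun _ => 0) fun ω _ => h ω

lemma Pb_nonneg (E : St T Λ κ → Prop) : 0 ≤ Pb ex ey M lab E :=
  Ev_nonneg hB hM hl fun ω => by split_ifs <;> norm_num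

end ev

lemma Ev_add (F G : St T Λ κ → ℝ) :
    Ev ex ey M lab (fun ω => F ω + G ω) = Ev ex ey M lab F + Ev ex ey M lab G := by
  simp only [Ev, mul_add, sum_add_distrib, add_div]

lemma Ev_mul (c : ℝ) (F : St T Λ κ → ℝ) :
    Ev ex ey M lab (fun ω => c * F ω) = c * Ev ex ey M lab F := by
  simp only [Ev, mul_left_comm _ c, ← mul_sum, mul_div_assoc]

lemma Ev_sum {ι : Type} (S : Finset ι) (F : ι → St T Λ κ → ℝ) :
    Ev ex ey M lab (fun ω => ∑ i ∈ S, F i ω) = ∑ i ∈ S, Ev ex ey M lab (F i) := by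
  simp only [Ev, mul_sum, ← sum_div]; rw [sum_comm]

lemma Ev_congr {F G : St T Λ κ → ℝ} (h : ∀ ω, wt ex ey M lab ω ≠ 0 → F ω = G ω) :
    Ev ex ey M lab F = Ev ex ey M lab G := by
  unfold Ev
  congr 1
  refine sum_congr rfl fun ω _ => ?_
  by_cases h0 : wt ex ey M lab ω = 0
  · rw [h0, zero_mul, zero_mul]
  · rw [h ω h0]

lemma Ev_atoms {α : Type} [Fintype α] (r : St T Λ κ → α) (φ : α → ℝ) :
    Ev ex ey M lab (fun ω => φ (r ω)) = ∑ η, Pb ex ey M lab (fun ω => r ω = η) * φ η := by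
  simp only [Pb, mul_comm _ (φ _), ← Ev_mul, ← Ev_sum]
  congr 1; funext ω
  rw [sum_eq_single (r ω)] <;> simp +contextual [eq_comm]

lemma Pb_le_add (hB : BasStmt) (hM : M.Ok y) (hl : Lab lab) {E E1 E2 : St T Λ κ → Prop}
    (h : ∀ ω, wt ex ey M lab ω ≠ 0 → E ω → E1 ω ∨ E2 ω) :
    Pb ex ey M lab E ≤ Pb ex ey M lab E1 + Pb ex ey M lab E2 := by
  rw [Pb, Pb, Pb, ← Ev_add]
  refine Ev_mono hB hM hl fun ω hω => ?_
  have := h ω hω
  split_ifs <;> first | (exfalso; tauto) | norm_num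

lemma tv_aux {ι : Type} [Fintype ι] (P P' φ : ι → ℝ) (G : ι → Prop) [DecidablePred G] {δ β : ℝ}
    (h0 : ∀ i, 0 ≤ P i) (h0' : ∀ i, 0 ≤ P' i) (h1 : ∑ i, P i = 1) (h1' : ∑ i, P' i = 1)
    (hG : ∀ i, G i → P i ≤ Real.exp δ * P' i) (hδ : 0 ≤ δ)
    (hβ : ∑ i, P i * (if G i then 0 else 1) ≤ β) (hφ : ∀ i, |φ i| ≤ 1) :
    |∑ i, P i * φ i - ∑ i, P' i * φ i| ≤ 2 * (δ + β) := by
  have key : ∀ i, |P i * φ i - P' i * φ i| ≤
      P' i - P i + 2 * (δ * P i + P i * (if G i then 0 else 1)) := by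
    intro i
    rw [← sub_mul, abs_mul]
    refine (mul_le_of_le_one_right (abs_nonneg _) (hφ i)).trans ?_
    have h2 : P i - P' i ≤ δ * P i + P i * (if G i then 0 else 1) := by
      split_ifs with h
      · have h3 : Real.exp (-δ) * P i ≤ P' i := by
          rw [Real.exp_neg, inv_mul_le_iff₀ (Real.exp_pos δ)]; exact hG i h
        have h4 := mul_le_mul_of_nonneg_right (Real.add_one_le_exp (-δ)) (h0 i)
        linarith
      · nlinarith [h0 i, h0' i]
    have h3 : 0 ≤ δ * P i + P i * (if G i then 0 else 1) := by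
      have := h0 i
      split_ifs <;> positivity
    rw [abs_le]; constructor <;> linarith
  rw [← sum_sub_distrib]
  refine (abs_sum_le_sum_abs _ _).trans ((sum_le_sum fun i _ => key i).trans ?_)
  rw [sum_add_distrib, sum_sub_distrib, h1, h1', ← mul_sum, sum_add_distrib, ← mul_sum, h1]
  linarith

lemma Pb_prod (hB : BasStmt) {p : Fin T → ℝ} (hp : ∀ s, 0 ≤ p s ∧ p s ≤ 1) (hl : Lab lab)
    (E : (Fin T → Bool) → Prop) [DecidablePred E] :
    ∑ ξ, Pw p ξ * (if E ξ then 0 else 1) = Pb ex ey ⟨p, 0⟩ lab fun ω => ¬ E ω.1 := by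
  classical
  have hM : (⟨p, 0⟩ : Mdl T Λ).Ok 0 := ⟨hp, fun _ => by simp, fun _ => le_rfl⟩
  have h1 : ∀ ξ, lw ex ey (0 : Fin T × Λ → ℝ) ξ = 1 := fun ξ =>
    prod_eq_one fun g _ => by rw [pr_zero (o_bp g) rfl, add_zero]
  have h2 := ((hB Λ T ex ey _ 0 hM).2.2.2.2 κ lab hl).2 fun ξ => if E ξ then 0 else 1
  simp only [h1, mul_one] at h2
  rw [Pb, Ev, ← h2, Z]
  simp only [h1, mul_one, sum_Pw, div_one]
  exact sum_congr rfl fun ω _ => by by_cases h : E ω.1 <;> simp [h]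

lemma Pb_atom (hB : BasStmt) (hC : CondStmt) (hM : M.Ok y) (hl : Lab lab)
    (U : Finset (Fin T × Λ)) {ω0 : St T Λ κ} (h0 : Cl ex ey ω0.1 ω0.2) :
    Pb ex ey M lab (fun ω => res ex ey U ω = res ex ey U ω0) =
      aw ex ey M lab (res ex ey U ω0) * Z ex ey (child ex ey M U (res ex ey U ω0)) / Z ex ey M := by
  have h := (hC Λ T ex ey κ lab M U ω0 h0).1 fun _ => 1
  simp only [mul_one, sum_wt hB (hM.child U _) hl] at h
  rw [Pb, Ev, ← h]
  congr 1
  exact sum_congr rfl fun ω _ => by congr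

lemma card_pos (ex : Fin T → Λ) : 1 ≤ Fintype.card Λ := Fintype.card_pos_iff.2 ⟨ex 0⟩

lemma Num.small {N : ℕ} {Tf K δ : ℝ} {v m f D : ℕ} (h : Num N Tf K δ v m f D) (hN : 1 ≤ N) :
    16 * ((1 / 2) ^ f + N * Real.exp (40 * K - f)) ≤ δ ∧ N * Real.exp (-1 / Tf) ^ m ≤ δ := by
  obtain ⟨h1, h2, -, h4, h5, -⟩ := h
  have hN' : (1 : ℝ) ≤ N := by exact_mod_cast hN
  constructor
  · refine le_trans ?_ h5
    have h6 : (1 : ℝ) ≤ (16 * N) ^ m := one_le_pow₀ (by linarith)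
    have h7 : (0 : ℝ) ≤ (1 / 2) ^ f + N * Real.exp (40 * K - f) := by positivity
    nlinarith [mul_le_mul hN' h6 zero_le_one (by linarith : (0 : ℝ) ≤ N)]
  · refine le_trans ?_ h4
    have h6 : Real.exp (-1 / Tf) ^ m ≤ Real.exp (-m / (2 * Tf)) := by
      rw [← Real.exp_nat_mul, Real.exp_le_exp, mul_div_assoc', div_le_div_iff₀ (by linarith)
        (by linarith)]
      have : (0 : ℝ) ≤ m * Tf := by positivity
      nlinarith
    have h7 := Real.exp_pos (-m / (2 * Tf))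
    have h8 : (N : ℝ) ≤ 16 * N * Tf := by nlinarith
    exact mul_le_mul h8 h6 (by positivity) (by positivity)

/-- the cross ratio of four partition functions. -/
lemma ratio {M' : Mdl T Λ} {A U S : Finset Λ} {Tf K δ : ℝ} {N v m f D : ℕ}
    (hs : ∀ v, M.b v ≠ 0 → v.2 ∈ S) (hs' : ∀ v, M'.b v ≠ 0 → v.2 ∈ S) (hSN : S.card ≤ N)
    (hN1 : 1 ≤ N) (hd : Met ex ey d)
    (hM : M.Ok (Real.exp (-1 / Tf))) (hM' : M'.Ok (Real.exp (-1 / Tf))) (hA : Agree ex ey M M' A)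
    (hR : Rate ex ey d M (v + 2) K) (hR' : Rate ex ey d M' (v + 2) K)
    (hS : Slow ex ey d (Cheap ex ey d M) (fun u => u.2 ∉ nbd d 1 A ∧ M.b u ≠ 0) v)
    (hN : Num N Tf K δ v m f D) (hD : ∀ a ∈ A, ∀ u ∈ U, 2 * D + 2 ≤ d a u)
    (hl : Lab lab) {U' : Finset (Fin T × Λ)} (hU : U' ⊆ cyl U) {η : St T Λ κ}
    (hη : ∀ w, η.2 w ≠ none → w.2 ∈ nbd d ((m + 1) * ((f + 1) * (v + 1))) U) :
    Z ex ey (child ex ey M U' η) * Z ex ey M' ≤
      Real.exp δ * (Z ex ey M * Z ex ey (child ex ey M' U' η)) := by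
  classical
  set D0 := (m + 1) * ((f + 1) * (v + 1)) with hD0
  have hDD : D0 + 2 ≤ D := hN.2.2.2.2.2.2
  let B : Bool → Mdl T Λ := fun i => if i = true then M else M'
  let Mm : Bool → Bool → Mdl T Λ := fun i j => if j = true then child ex ey (B i) U' η else B i
  have hBo : ∀ i, (B i).Ok (Real.exp (-1 / Tf)) := fun i => by cases i; exacts [hM', hM]
  have hMo : ∀ i j, (Mm i j).Ok (Real.exp (-1 / Tf)) := fun i j => by
    cases j; exacts [hBo i, (hBo i).child U' η]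
  have hy1 : Real.exp (-1 / Tf) ≤ 1 :=
    Real.exp_le_one_iff.2 (div_nonpos_of_nonpos_of_nonneg (by norm_num) (by linarith [hN.1]))
  have hAA : ∀ x, x ∉ nbd d 1 A → x ∉ A := fun x hx ha =>
    hx (mem_nbd.2 ⟨x, ha, by rw [hd.1]; omega⟩)
  have hG : ∀ x, x ∉ nbd d (D0 + 1) U → ∀ s x', d x x' ≤ 1 → η.2 (s, x') = none := by
    intro x hx s x' hx'
    by_contra h
    obtain ⟨u, hu, h3⟩ := mem_nbd.1 (hη _ h)
    exact hx (mem_nbd.2 ⟨u, hu, (hd.2.2.1 _ x' _).trans (by simp only at h3; omega)⟩)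
  have hT : ∀ s x, x ∉ nbd d (D0 + 1) U → (x = ex s ∨ x = ey s) → ¬ Tch ex ey η.2 s := by
    rintro s x hx he (h | h)
    · exact h (hG x hx s _ (hd.ends he (Or.inl rfl)))
    · exact h (hG x hx s _ (hd.ends he (Or.inr rfl)))
  have hBp : ∀ i s, ex s ∉ A → ey s ∉ A → (B i).p s = M.p s := fun i s h1 h2 => by
    cases i; exacts [(hA.1 s h1 h2).symm, rfl]
  have hBb : ∀ i u, u.2 ∉ A → (B i).b u = M.b u := fun i u h1 => by
    cases i; exacts [(hA.2 u h1).symm, rfl]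
  have hMs : ∀ i j v, (Mm i j).b v ≠ 0 → v.2 ∈ S := fun i j v h => by
    have h3 : (B i).b v ≠ 0 := by cases j; exacts [h, (child_b h).2.2]
    cases i; exacts [hs' v h3, hs v h3]
  have hB := bas
  have hTwo := twoS Mm (nbd d 1 A) (nbd d (D0 + 1) U) ((f + 1) * (v + 1)) f
    (N * Real.exp (40 * K - f)) hMs hSN hd (fun i j => (hMo i j).mono hy1)
    (fun j => ⟨fun s h1 h2 => ?_, fun u h1 => ?_⟩) (fun i => ⟨fun s h1 h2 => ?_, fun u h1 => ?_⟩)
    (fun a ha g hg => ?_) fun i j => ?_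
  · choose Q hQ1 hQ2 using fun i j => degS ex ey (hMs i j) hSN
    have hN1' : (1 : ℝ) ≤ N := by exact_mod_cast hN1
    have hsm := hN.small hN1
    have h := (circ Q (fun i j => Z ex ey (Mm i j)) N m Tf _ δ hN1 hN.1 hQ1
      (fun i j => by rw [hQ2, (hB Λ T ex ey _ _ (hMo i j)).2.1]) (fun i j => Z_pos hB (hMo i j))
      (fun i j l hl => by rw [hQ2]; exact lyd Λ T ex ey _ _ (hMo i j) l hl)
      (fun i j l hl => ?_) (fun i j => ?_) (fun l hl => by simp only [hQ2]; exact hTwo l hl)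
      (hsm.1.trans hN.2.2.1) (le_trans (le_of_eq (by ring)) hN.2.2.2.2.1) hN.2.2.2.1).1
    · simpa [Mm, B] using h
    · rw [hQ2]
      refine (normS ex ey ((hMo i j).mono hy1) (hMs i j) hSN l).trans ?_
      have h3 : (1 + ‖l‖) ^ N ≤ Real.exp ‖l‖ ^ N :=
        pow_le_pow_left₀ (by positivity) (by linarith [Real.add_one_le_exp ‖l‖]) _
      rw [← Real.exp_nat_mul] at h3
      have h4 : Real.exp (N * ‖l‖) ≤ Real.exp (1 / 8) :=
        Real.exp_le_exp.2 (by linarith)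
      have h5 := Real.exp_bound_div_one_sub_of_interval (x := 1 / 8) (by norm_num) (by norm_num)
      norm_num at h5
      linarith
    · have := (hB Λ T ex ey _ _ (hMo i j)).2.2.2.1 0
      rw [hQ2]
      simpa [sub_eq_zero] using this
  · have e := hA.1 s (hAA _ h1) (hAA _ h2)
    cases j
    · exact e
    · simp only [Mm, B, child, if_true, Bool.false_eq_true, if_false, e]
  · have e := hA.2 u (hAA _ h1)
    cases j
    · exact e
    · simp only [Mm, B, child, if_true, Bool.false_eq_true, if_false, e]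
  · simp only [Mm, child, if_true, Bool.false_eq_true, if_false, if_neg (hT s _ h1 (Or.inl rfl))]
  · have h3 : ¬ (u ∈ U' ∨ η.2 u ≠ none) := by
      rintro (h | h)
      · exact h1 (mem_nbd.2 ⟨u.2, mem_cyl.1 (hU h), by rw [hd.1]; omega⟩)
      · exact h (hG _ h1 u.1 u.2 (by rw [hd.1]; omega))
    simp only [Mm, child, if_true, Bool.false_eq_true, if_false, if_neg h3]
  · obtain ⟨a', ha', h3⟩ := mem_nbd.1 ha
    obtain ⟨u, hu, h4⟩ := mem_nbd.1 hg
    have h5 := hD a' ha' u hu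
    have h6 := hd.2.2.1 a' a u
    have h7 := hd.2.2.1 a g u
    have h8 := hN.2.2.2.2.2.1
    rw [hd.2.1] at h3
    have : (2 * f + 3) * (2 * ((f + 1) * (v + 1)) + 2) =
      (2 * f + 2) * (2 * ((f + 1) * (v + 1)) + 2) + (2 * ((f + 1) * (v + 1)) + 2) := by ring
    omega
  · rw [Pb_prod hB (hMo i j).1 hl]
    refine fastS ex ey (M := ⟨(Mm i j).p, 0⟩) (y := 0) f hd
      ⟨(hMo i j).1, fun _ => by simp, fun _ => le_rfl⟩ le_rfl ?_ ?_ hl
      (fun u hu => hMs i j u hu.2.2) hSN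
    · have h3 : Rate ex ey d (B i) (v + 2) K := by cases i; exacts [hR', hR]
      refine h3.of_le le_rfl (fun s => ((hBo i).1 s).1) fun s => ?_
      cases j
      · exact Or.inl rfl
      · exact child_p U' η s
    · refine hS.mono' le_rfl (fun u hu => ⟨hu.1, ?_⟩) fun s x hx he hc => ?_
      · rw [← hBb i u (hAA _ hu.1)]
        cases j
        · exact hu.2.2
        · exact (child_b hu.2.2).2.2
      · have h3 : ∀ x', (x' = ex s ∨ x' = ey s) → x' ∉ A := fun x' h ha =>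
          hx.1 (mem_nbd.2 ⟨x', ha, hd.ends he h⟩)
        have h4 : (Mm i j).p s = M.p s := by
          rw [← hBp i s (h3 _ (Or.inl rfl)) (h3 _ (Or.inr rfl))]
          cases j
          · rfl
          · simp only [Mm, child, if_true, if_neg (hT s x hx.2.1 he)]
        unfold Cheap at hc ⊢
        rwa [← h4]

/-- **clustering**, uniformly in the pins, for models supported on at most `N` slots. -/
theorem clusS {M' : Mdl T Λ} {A U S : Finset Λ} {Tf K δ : ℝ} {N v m f D : ℕ}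
    (hs : ∀ v, M.b v ≠ 0 → v.2 ∈ S) (hs' : ∀ v, M'.b v ≠ 0 → v.2 ∈ S) (hSN : S.card ≤ N)
    (hN1 : 1 ≤ N) (hd : Met ex ey d)
    (hM : M.Ok (Real.exp (-1 / Tf))) (hM' : M'.Ok (Real.exp (-1 / Tf))) (hA : Agree ex ey M M' A)
    (hR : Rate ex ey d M (v + 2) K) (hR' : Rate ex ey d M' (v + 2) K)
    (hS : Slow ex ey d (Cheap ex ey d M) (fun u => u.2 ∉ nbd d 1 A ∧ M.b u ≠ 0) v)
    (hN : Num N Tf K δ v m f D) (hD : ∀ a ∈ A, ∀ u ∈ U, 2 * D + 2 ≤ d a u)
    (hl : Lab lab) {U' : Finset (Fin T × Λ)} {φ : St T Λ κ → ℝ} (hU : U' ⊆ cyl U)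
    (hφ : ∀ η, |φ η| ≤ 1) :
    |Ev ex ey M lab (fun ω => φ (res ex ey U' ω)) -
      Ev ex ey M' lab (fun ω => φ (res ex ey U' ω))| ≤ 10 * δ := by
  classical
  have hB := bas
  have hC := cond
  set D0 := (m + 1) * ((f + 1) * (v + 1)) with hD0
  have hDD : D0 + 2 ≤ D := hN.2.2.2.2.2.2
  have hsm := hN.small hN1
  have hδ := hN.2.1
  rw [Ev_atoms (res ex ey U') φ, Ev_atoms (res ex ey U') φ]
  have h1 : ∀ {M : Mdl T Λ}, M.Ok (Real.exp (-1 / Tf)) →
      ∑ η, Pb ex ey M lab (fun ω => res ex ey U' ω = η) = 1 := fun {M} hM => by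
    simpa only [mul_one, Ev_const hB hM hl] using
      (Ev_atoms (ex := ex) (ey := ey) (M := M) (lab := lab) (res ex ey U') fun _ => 1).symm
  refine (tv_aux _ _ φ (fun η => ∀ w, η.2 w ≠ none → w.2 ∈ nbd d D0 U) (β := 2 * δ)
    (fun _ => Pb_nonneg hB hM hl _) (fun _ => Pb_nonneg hB hM' hl _) (h1 hM) (h1 hM')
    (fun η hη => ?_) hδ.le ?_ hφ).trans (by linarith)
  · by_cases h0 : ∃ ω0 : St T Λ κ, Cl ex ey ω0.1 ω0.2 ∧ res ex ey U' ω0 = η
    · obtain ⟨ω0, h0, rfl⟩ := h0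
      have hfar : ∀ s x x', (res ex ey U' ω0).2 (s, x) ≠ none → d x' x ≤ 1 → x' ∉ A := by
        intro s x x' h hx ha
        obtain ⟨u, hu, h3⟩ := mem_nbd.1 (hη _ h)
        have h4 := hD x' ha u hu
        have h5 := hd.2.2.1 x' x u
        simp only at h3
        omega
      have haw : aw ex ey M lab (res ex ey U' ω0) = aw ex ey M' lab (res ex ey U' ω0) := by
        unfold aw dw
        congr 2
        · funext s
          split_ifs with h
          · rcases h with h | h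
            · rw [hA.1 s (hfar _ _ _ h (hd.ends (Or.inl rfl) (Or.inl rfl)))
                (hfar _ _ _ h (hd.ends (Or.inr rfl) (Or.inl rfl)))]
            · rw [hA.1 s (hfar _ _ _ h (hd.ends (Or.inl rfl) (Or.inr rfl)))
                (hfar _ _ _ h (hd.ends (Or.inr rfl) (Or.inr rfl)))]
          · rfl
        · refine prod_congr rfl fun w _ => ?_
          split_ifs with h
          · rfl
          · exact hA.2 w (hfar w.1 w.2 w.2 h (by rw [hd.1]; omega))
      have hr := ratio hs hs' hSN hN1 hd hM hM' hA hR hR' hS hN hD hl hU hη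
      have ha : 0 ≤ aw ex ey M' lab (res ex ey U' ω0) := by
        have h3 := Pb_nonneg (ex := ex) (ey := ey) hB hM' hl
          fun ω => res ex ey U' ω = res ex ey U' ω0
        rw [Pb_atom hB hC hM' hl U' h0, le_div_iff₀ (Z_pos hB hM'), zero_mul] at h3
        exact nonneg_of_mul_nonneg_left h3 (Z_pos hB (hM'.child U' _))
      rw [Pb_atom hB hC hM hl U' h0, Pb_atom hB hC hM' hl U' h0, haw, mul_div_assoc',
        div_le_div_iff₀ (Z_pos hB hM) (Z_pos hB hM')]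
      nlinarith [mul_le_mul_of_nonneg_left hr ha]
    · have : Pb ex ey M lab (fun ω => res ex ey U' ω = η) = 0 := by
        refine Eq.trans (Ev_congr fun ω hω => ?_) (Ev_const hB hM hl 0)
        exact if_neg fun h => h0 ⟨ω, wt_cl hω, h⟩
      rw [this]
      exact mul_nonneg (Real.exp_pos _).le (Pb_nonneg hB hM' hl _)
  · rw [← Ev_atoms (res ex ey U') fun η =>
      if ∀ w, η.2 w ≠ none → w.2 ∈ nbd d D0 U then 0 else 1]
    have h3 := longS ex ey hM (Real.exp_pos _).le hl hs hSN m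
    have h4 := fastS ex ey f hd hM (Real.exp_pos _).le hR hS hl (fun u hu => hs u hu.2) hSN
    have h5 := Pb_le_add (ex := ex) (ey := ey) hB hM hl (E := fun ω => ¬ ∀ w, (res ex ey U' ω).2 w ≠ none →
      w.2 ∈ nbd d D0 U) (E1 := fun ω => ∃ u, ω.2 u ≠ none ∧ m < wind ex ey ω.1 u)
      (E2 := fun ω => ¬ Slow ex ey d (Act ex ey d ω.1) (fun u => u.2 ∉ nbd d 1 A ∧ M.b u ≠ 0)
        ((f + 1) * (v + 1))) fun ω hω h => ?_
    · have h6 : (0 : ℝ) ≤ (1 / 2) ^ f := by positivity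
      have h7 : (0 : ℝ) ≤ N * Real.exp (40 * K - f) := by positivity
      refine le_trans (le_of_eq ?_) (h5.trans (by linarith [hsm.1, hsm.2]))
      exact Ev_congr fun ω _ => by
        by_cases h : ∀ w, (res ex ey U' ω).2 w ≠ none → w.2 ∈ nbd d D0 U
        · rw [if_pos h, if_neg (not_not.2 h)]
        · rw [if_neg h, if_pos h]
    · by_contra h6
      push Not at h6
      refine h fun w hw => ?_
      obtain ⟨e, u, hu, h7⟩ := res_snd hw
      rw [e] at hw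
      have h8 : ∀ w', o (Sg ex ey ω.1) w' = o (Sg ex ey ω.1) u → ω.2 w' ≠ none := fun w' h' => by
        rwa [(wt_cl hω).eq (h'.trans h7)]
      have h9 := loop_near hd h6.2 ω.1 u (h6.1 u (h8 u rfl)) (fun _ _ h _ => Or.inl h)
        (fun w' h' h'' => ⟨fun ha => ?_, wt_b hω (h8 w' h')⟩) w h7.symm
      · exact mem_nbd.2 ⟨u.2, mem_cyl.1 (hU hu), by rwa [hd.2.1]⟩
      · obtain ⟨a, ha, h10⟩ := mem_nbd.1 ha
        have h11 := hD a ha _ (mem_cyl.1 (hU hu))
        have h12 := hd.2.2.1 a w'.2 u.2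
        rw [hd.2.1] at h10 h''
        omega


end Crest.Agent.N337.A
end

-- ▼ part N337/A/Loc
section

/-!
# Row 337, block (a): agreement of loops, locality of `res`
-/

set_option autoImplicit false
set_option linter.unusedSectionVars false

namespace Crest.Agent.N337.A

open Finset Equiv Crest.Agent.N337.Rep Crest.Agent.N337.LY0

variable {Λ : Type} [Fintype Λ] [DecidableEq Λ] {T : ℕ} [NeZero T] {ex ey : Fin T → Λ}
  {κ : Type} [Fintype κ] [DecidableEq κ] {d : Λ → Λ → ℕ} {M : Mdl T Λ}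
  {lab : Finset (Fin T × Λ) → κ → ℝ} {y : ℝ} {x x' x'' ω : St T Λ κ} {u : Fin T × Λ}
  {U : Finset (Fin T × Λ)}

/-- the loop through `u` only depends on the coins it touches. -/
lemma orb_iff {ξ ξ' : Fin T → Bool} (h : ∀ w, o (Sg ex ey ξ) u = o (Sg ex ey ξ) w →
    (w.2 = ex w.1 ∨ w.2 = ey w.1) → ξ w.1 = ξ' w.1) (w : Fin T × Λ) :
    o (Sg ex ey ξ) u = o (Sg ex ey ξ) w ↔ o (Sg ex ey ξ') u = o (Sg ex ey ξ') w := by
  have key : ∀ k : ℕ, (Sg ex ey ξ' ^ k) u = (Sg ex ey ξ ^ k) u := by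
    intro k
    induction k with
    | zero => rfl
    | succ k ih =>
      rw [pow_succ', pow_succ', Perm.mul_apply, Perm.mul_apply, ih]
      have h1 := h ((Sg ex ey ξ ^ k) u) (by rw [o_pow])
      generalize (Sg ex ey ξ ^ k) u = c at h1
      obtain ⟨s, z⟩ := c
      rw [Sg_apply, Sg_apply]
      by_cases h2 : z = ex s ∨ z = ey s
      · rw [show ξ s = ξ' s from h1 h2]
      · push Not at h2
        cases ξ s <;> cases ξ' s <;> simp [sg, swap_apply_of_ne_of_ne h2.1 h2.2]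
  constructor <;> intro e <;> obtain ⟨k, -, hk⟩ := (o_eq.1 e).exists_pow_eq'
  · rw [← hk, ← key, o_pow]
  · rw [← hk, key, o_pow]

variable (ex ey) in
/-- two states have the same down loop (or none) through `u`. -/
def LA (x x' : St T Λ κ) (u : Fin T × Λ) : Prop :=
  x.2 u = x'.2 u ∧ (x.2 u ≠ none → ∀ w, o (Sg ex ey x.1) u = o (Sg ex ey x.1) w →
    (w.2 = ex w.1 ∨ w.2 = ey w.1) → x.1 w.1 = x'.1 w.1)

lemma LA.orb (h : LA ex ey x x' u) (hu : x.2 u ≠ none) (w : Fin T × Λ) :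
    o (Sg ex ey x.1) u = o (Sg ex ey x.1) w ↔ o (Sg ex ey x'.1) u = o (Sg ex ey x'.1) w :=
  orb_iff (h.2 hu) w

lemma LA.symm (h : LA ex ey x x' u) : LA ex ey x' x u :=
  ⟨h.1.symm, fun hu w hw he => (h.2 (h.1 ▸ hu) w ((h.orb (h.1 ▸ hu) w).2 hw) he).symm⟩

lemma LA.trans (h : LA ex ey x x' u) (h' : LA ex ey x' x'' u) : LA ex ey x x'' u :=
  ⟨h.1.trans h'.1, fun hu w hw he =>
    (h.2 hu w hw he).trans (h'.2 (h.1 ▸ hu) w ((h.orb hu w).1 hw) he)⟩

lemma LA.wind (h : LA ex ey x x' u) (hu : x.2 u ≠ none) : wind ex ey x.1 u = wind ex ey x'.1 u := by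
  unfold A.wind
  exact congrArg card (filter_congr fun z _ => by rw [eq_comm, h.orb hu, eq_comm])

lemma tch_of {n : Fin T × Λ → Option κ} {w : Fin T × Λ} (h : n w ≠ none)
    (he : w.2 = ex w.1 ∨ w.2 = ey w.1) : Tch ex ey n w.1 := by
  rcases he with e | e
  · exact Or.inl (by rw [← e]; exact h)
  · exact Or.inr (by rw [← e]; exact h)

lemma Tch.exists {n : Fin T × Λ → Option κ} {s : Fin T} (h : Tch ex ey n s) :
    ∃ z, (z = ex s ∨ z = ey s) ∧ n (s, z) ≠ none :=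
  h.elim (fun h => ⟨_, Or.inl rfl, h⟩) fun h => ⟨_, Or.inr rfl, h⟩

lemma res_none (h : x.2 u = none) : (res ex ey U x).2 u = none := by
  by_contra h1; exact h1 ((res_snd h1).1.trans h)

lemma la_res (hc : Cl ex ey x.1 x.2) (h : (res ex ey U x).2 u = x.2 u) :
    LA ex ey x (res ex ey U x) u := by
  refine ⟨h.symm, fun hu w hw he => (res_fst (tch_of ?_ he)).symm⟩
  obtain ⟨-, u0, h0, h1⟩ := res_snd (h ▸ hu : (res ex ey U x).2 u ≠ none)
  rwa [res_snd_of h0 (h1.trans hw), ← hc.eq hw]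

lemma LA.res (h : LA ex ey x x' u) (hc : Cl ex ey x.1 x.2) (hc' : Cl ex ey x'.1 x'.2) :
    LA ex ey (res ex ey U x) (res ex ey U x') u := by
  have e : (A.res ex ey U x).2 u = (A.res ex ey U x').2 u := by
    by_cases hu : x.2 u = none
    · rw [res_none hu, res_none (h.1 ▸ hu)]
    · simp only [A.res, rn, eq_comm (b := o _ u), h.orb hu, h.1]
  by_cases hu : (A.res ex ey U x).2 u = none
  · exact ⟨e, fun h => absurd hu h⟩
  · exact ((la_res hc (res_snd hu).1).symm.trans h).trans (la_res hc' (res_snd (e ▸ hu)).1)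

lemma la_of_res (hc : Cl ex ey x.1 x.2) (hc' : Cl ex ey x'.1 x'.2)
    (h : res ex ey U x = res ex ey U x') (hu : u ∈ U) : LA ex ey x x' u :=
  (la_res hc (res_snd_of hu rfl)).trans (h ▸ (la_res hc' (res_snd_of hu rfl)).symm)

lemma res_ext (hc : Cl ex ey x.1 x.2) (hc' : Cl ex ey x'.1 x'.2)
    (h : ∀ u ∈ U, LA ex ey x x' u) : res ex ey U x = res ex ey U x' := by
  have key : ∀ {x x' : St T Λ κ}, Cl ex ey x.1 x.2 → Cl ex ey x'.1 x'.2 →
      (∀ u ∈ U, LA ex ey x x' u) → ∀ w, (res ex ey U x).2 w ≠ none →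
      (res ex ey U x).2 w = (res ex ey U x').2 w ∧
        ((w.2 = ex w.1 ∨ w.2 = ey w.1) → x.1 w.1 = x'.1 w.1) := by
    intro x x' hc hc' h w hw
    obtain ⟨e, u, hu, h1⟩ := res_snd hw
    have h2 : x.2 u ≠ none := by rwa [hc.eq h1, ← e]
    have h3 := ((h u hu).orb h2 w).1 h1
    exact ⟨by rw [e, res_snd_of hu h3, ← hc.eq h1, ← hc'.eq h3, (h u hu).1], (h u hu).2 h2 w h1⟩
  have e : (res ex ey U x).2 = (res ex ey U x').2 := by
    funext w
    by_cases h1 : (res ex ey U x).2 w = none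
    · by_contra h2
      exact h2 (key hc' hc (fun u hu => (h u hu).symm) w fun h3 => h2 (h1.trans h3.symm)).1.symm
    · exact (key hc hc' h w h1).1
  refine Prod.ext (funext fun s => ?_) e
  by_cases h1 : Tch ex ey (res ex ey U x).2 s
  · obtain ⟨z, h2, h3⟩ := h1.exists
    rw [res_fst h1, res_fst (e ▸ h1)]
    exact (key hc hc' h (s, z) h3).2 h2
  · rw [res_fst' h1, res_fst' (e ▸ h1)]

end Crest.Agent.N337.A
end

-- ▼ part N337/A/Box
section

/-!
# Row 337, block (a): four layers of resampling mix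
-/

set_option autoImplicit false
set_option linter.unusedSectionVars false

namespace Crest.Agent.N337.A

open Finset Equiv Crest.Agent.N337.Rep Crest.Agent.N337.LY0

variable {Λ : Type} [Fintype Λ] [DecidableEq Λ] {T : ℕ} [NeZero T] {ex ey : Fin T → Λ}
  {κ : Type} [Fintype κ] [DecidableEq κ] {d : Λ → Λ → ℕ} {M : Mdl T Λ}
  {lab : Finset (Fin T × Λ) → κ → ℝ} {y : ℝ} {ω ω' : St T Λ κ} {U : Finset (Fin T × Λ)}

lemma schur {ι : Type} [Fintype ι] {a b : ι → ℝ} (ha : ∀ i, 0 ≤ a i) (hb : ∀ i, 0 ≤ b i) {ε : ℝ}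
    (h : ∀ φ : ι → ℝ, (∀ i, |φ i| ≤ 1) → |∑ i, a i * φ i - ∑ i, b i * φ i| ≤ ε) (F : ι → ℝ) :
    (∑ i, a i * F i - ∑ i, b i * F i) ^ 2 ≤ ε * (∑ i, a i * F i ^ 2 + ∑ i, b i * F i ^ 2) := by
  have h1 : ∑ i, |a i - b i| ≤ ε := by
    refine le_trans (le_of_eq ?_) ((le_abs_self _).trans
      (h (fun i => if b i ≤ a i then 1 else -1) fun i => by split_ifs <;> simp))
    rw [← sum_sub_distrib]
    refine sum_congr rfl fun i _ => ?_
    split_ifs with h2
    · rw [abs_of_nonneg (by linarith)]; ring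
    · rw [abs_of_nonpos (by linarith)]; ring
  have h2 := sum_sq_le_sum_mul_sum_of_sq_le_mul univ (r := fun i => a i * F i - b i * F i)
    (f := fun i => |a i - b i|) (g := fun i => |a i - b i| * F i ^ 2) (fun _ _ => abs_nonneg _)
    (fun _ _ => by positivity) fun i _ => le_of_eq (by rw [← mul_assoc, abs_mul_abs_self]; ring)
  rw [← sum_sub_distrib, ← sum_add_distrib]
  refine h2.trans (mul_le_mul h1 (sum_le_sum fun i _ => ?_) (sum_nonneg fun _ _ => by positivity)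
    ((sum_nonneg fun _ _ => abs_nonneg _).trans h1))
  rw [← add_mul]
  exact mul_le_mul_of_nonneg_right (abs_le.2 ⟨by linarith [ha i], by linarith [hb i]⟩) (sq_nonneg _)

/-- positive linear functionals. -/
def Lin {α : Type} [Fintype α] (L : (α → ℝ) → ℝ) : Prop :=
  ∃ c : α → ℝ, (∀ x, 0 ≤ c x) ∧ ∀ F, L F = ∑ x, c x * F x

lemma Lin.comp {α β : Type} [Fintype α] [Fintype β] {L : (α → ℝ) → ℝ} {Q : (β → ℝ) → α → ℝ}
    (hL : Lin L) (hQ : ∀ x, Lin fun F => Q F x) : Lin fun F => L (Q F) := by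
  obtain ⟨c, h0, h1⟩ := hL
  choose c' h2 h3 using hQ
  refine ⟨fun z => ∑ x, c x * c' x z, fun z => sum_nonneg fun x _ => mul_nonneg (h0 x) (h2 x z),
    fun F => ?_⟩
  simp only [h1, h3, mul_sum, sum_mul, mul_assoc]
  exact sum_comm


section
variable (hM : M.Ok y) (hl : Lab lab)
include hM hl

lemma lin_Ev {α : Type} [Fintype α] (r : St T Λ κ → α) :
    Lin fun F : α → ℝ => Ev ex ey M lab fun ω => F (r ω) :=
  ⟨_, fun _ => Pb_nonneg bas hM hl _, fun F => Ev_atoms r F⟩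

lemma lin_Pk (U : Finset (Fin T × Λ)) (ω : St T Λ κ) : Lin fun F => Pk ex ey M lab U F ω :=
  lin_Ev (hM.child U _) hl _

lemma Ev_Pk (U : Finset (Fin T × Λ)) (F : St T Λ κ → ℝ) :
    Ev ex ey M lab (Pk ex ey M lab U F) = Ev ex ey M lab F := by
  simpa only [one_mul] using ev_Pk (ex := ex) (ey := ey) bas hM hl U (fun _ => 1) F

lemma Ev_near {F G : St T Λ κ → ℝ} {E : St T Λ κ → Prop} {e : ℝ} (he : 0 ≤ e)
    (hF : ∀ ω, |F ω| ≤ 1) (hG : ∀ ω, |G ω| ≤ 1)
    (h : ∀ ω, wt ex ey M lab ω ≠ 0 → E ω → |F ω - G ω| ≤ e) :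
    |Ev ex ey M lab F - Ev ex ey M lab G| ≤ e + 2 * Pb ex ey M lab fun ω => ¬ E ω := by
  have key : ∀ {F G : St T Λ κ → ℝ}, (∀ ω, |F ω| ≤ 1) → (∀ ω, |G ω| ≤ 1) →
      (∀ ω, wt ex ey M lab ω ≠ 0 → E ω → |F ω - G ω| ≤ e) →
      Ev ex ey M lab F ≤ Ev ex ey M lab G + (e + 2 * Pb ex ey M lab fun ω => ¬ E ω) := by
    intro F G hF hG h
    rw [Pb, ← Ev_mul, ← Ev_const (ex := ex) (ey := ey) bas hM hl e, ← Ev_add, ← Ev_add]
    refine Ev_mono bas hM hl fun ω hω => ?_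
    split_ifs with h1
    · linarith [le_of_abs_le (h ω hω h1)]
    · linarith [le_of_abs_le (hF ω), neg_le_of_abs_le (hG ω)]
  have h1 := key hF hG h
  have h2 := key hG hF fun ω h1 h2 => by rw [abs_sub_comm]; exact h ω h1 h2
  rw [abs_le]; constructor <;> linarith

lemma Ev_abs {F : St T Λ κ → ℝ} (hF : ∀ ω, |F ω| ≤ 1) : |Ev ex ey M lab F| ≤ 1 := by
  have h1 := Ev_mono (ex := ex) (ey := ey) bas hM hl fun ω _ => le_of_abs_le (hF ω)
  have h2 := Ev_mono (ex := ex) (ey := ey) bas hM hl fun ω _ => neg_le_of_abs_le (hF ω)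
  rw [Ev_const bas hM hl] at h1 h2
  exact abs_le.2 ⟨h2, h1⟩

lemma Pk_abs {F : St T Λ κ → ℝ} (hF : ∀ ω, |F ω| ≤ 1) (ω : St T Λ κ) :
    |Pk ex ey M lab U F ω| ≤ 1 := Ev_abs (hM.child U _) hl fun _ => hF _

end

/-- the down loops of a good state are small. -/
lemma Gd.near {m v : ℕ} (hd : Met ex ey d) (h0 : wt ex ey M lab ω ≠ 0) (h : Gd ex ey d M m v ω)
    {u w : Fin T × Λ} (hw : ω.2 w ≠ none) (e : o (Sg ex ey ω.1) u = o (Sg ex ey ω.1) w) :
    d u.2 w.2 ≤ (m + 1) * v := by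
  have h1 : ∀ w', o (Sg ex ey ω.1) w' = o (Sg ex ey ω.1) u → ω.2 w' ≠ none := fun w' h' => by
    rwa [(wt_cl h0).eq (h'.trans e)]
  exact loop_near hd h.2 ω.1 u (h.1 u (h1 u rfl))
    (fun w' h' h2 h3 => Or.inr ⟨h2, tch_of (h1 w' h') h3⟩) (fun w' h' _ => wt_b h0 (h1 w' h')) w
    e.symm

lemma Gd.child {m v : ℕ} (h : Gd ex ey d M m v ω) :
    Slow ex ey d (Cheap ex ey d (child ex ey M U (res ex ey U ω))) (fun u => M.b u ≠ 0) v := by
  refine h.2.mono' le_rfl (fun _ h => h) fun s _ _ _ hc => ?_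
  rcases hc with hc | hc
  · simp only [A.child] at hc
    split_ifs at hc with h1 h2
    · obtain ⟨z, h3, h4⟩ := h1.exists
      exact Or.inr ⟨res_fst h1 ▸ h2, tch_of (w := (s, z)) ((res_snd h4).1 ▸ h4) h3⟩
    · exact absurd hc zero_ne_one
    · exact Or.inl (Or.inl hc)
  · exact Or.inl (Or.inr hc)

/-- bad states are rare in every model `M'` that keeps the active pins of `M` and is slow. -/
lemma Pb_not_Gd {M' : Mdl T Λ} {S : Finset Λ} {K : ℝ} {N v : ℕ} (m g : ℕ) (hd : Met ex ey d)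
    (hM : M'.Ok y) (hy : 0 ≤ y) (hl : Lab lab) (hs : ∀ v, M.b v ≠ 0 → v.2 ∈ S)
    (hs' : ∀ v, M'.b v ≠ 0 → v.2 ∈ S) (hSN : S.card ≤ N) (hp : ∀ s, M.p s = 1 → M'.p s = 1)
    (hR : Rate ex ey d M' (v + 2) K) (hS : Slow ex ey d (Cheap ex ey d M') (fun u => M.b u ≠ 0) v) :
    Pb ex ey M' lab (fun ω => ¬ Gd ex ey d M m ((g + 1) * (v + 1)) ω) ≤
      N * y ^ m + N * Real.exp (40 * K - g) := by
  refine (Pb_le_add bas hM hl fun ω hω h8 => ?_).trans (add_le_add (longS ex ey hM hy hl hs' hSN m)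
    (fastS ex ey g hd hM hy hR hS hl hs hSN))
  by_contra h9
  push Not at h9
  refine h8 ⟨h9.1, h9.2.mono' le_rfl (fun _ h => h) fun s _ _ _ hc => ?_⟩
  rcases hc with (hc | hc) | hc
  exacts [Or.inl (wt_p1 hω (hp s hc)), Or.inr hc, Or.inl hc.1]

variable (ex ey d M lab) in
/-- on good states `H` is close to a function of the loops that meet `U`. -/
def App (m v : ℕ) (U : Finset (Fin T × Λ)) (H : St T Λ κ → ℝ) (e : ℝ) : Prop :=
  ∃ φ : St T Λ κ → ℝ, (∀ x, |φ x| ≤ 1) ∧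
    ∀ ω, wt ex ey M lab ω ≠ 0 → Gd ex ey d M m v ω → |H ω - φ (res ex ey U ω)| ≤ e

section step
variable {Tf K K' δ : ℝ} {N v V m f g D : ℕ} {S0 : Finset Λ} (hs : ∀ v, M.b v ≠ 0 → v.2 ∈ S0)
  (hSN : S0.card ≤ N) (hN1 : 1 ≤ N) (hd : Met ex ey d) (hM : M.Ok (Real.exp (-1 / Tf)))
  (hR : Rate ex ey d M (V + 2) K) (hN : Num N Tf K δ V m f D) (hl : Lab lab)
  (hv : v ≤ V) (hR' : Rate ex ey d M (v + 2) K') (hg : N * Real.exp (40 * K' - g) ≤ δ)
include hs hSN hN1 hd hM hN hl hR' hg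

/-- resampling keeps a good state good (with a larger speed). -/
lemma step_bad (h0 : wt ex ey M lab ω ≠ 0) (h : Gd ex ey d M m v ω) :
    Pb ex ey (child ex ey M U (res ex ey U ω)) lab
      (fun ω' => ¬ Gd ex ey d M m ((g + 1) * (v + 1)) (glue (res ex ey U ω) ω')) ≤ 2 * δ := by
  have hM' := hM.child (ex := ex) (ey := ey) U (res ex ey U ω)
  have hsm := hN.small hN1
  have h3 := longS ex ey hM' (Real.exp_pos _).le hl (fun v h => hs v (child_b h).2.2) hSN m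
  have h4 := fastS ex ey g hd hM' (Real.exp_pos _).le
    (hR'.of_le le_rfl (fun s => (hM.1 s).1) (child_p U _)) h.child hl hs hSN
  refine (Pb_le_add bas hM' hl fun ω' hω' h8 => ?_).trans
    ((add_le_add h3 h4).trans (by linarith [hsm.2]))
  by_contra h9
  push Not at h9
  refine h8 ⟨fun u hu => ?_, h9.2.mono' le_rfl (fun _ h => h) fun s _ _ _ hc => ?_⟩
  · rcases Cd.glue_ne_none.1 hu with h10 | h10
    · rw [Cd.glue_fst, wind_glue (wt_cl h0) hω' h10, (wt_cl h0).wind_res h10]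
      exact h.1 u ((res_snd h10).1 ▸ h10)
    · exact h9.1 u h10
  · rcases hc with (hc | hc) | hc
    exacts [Or.inl (wt_p1 (wt_glue_ne h0 hω') hc), Or.inr hc, Or.inl hc.1]

include hR hv in
/-- one layer: the region of disagreement shrinks to a neighbourhood of the killed set. -/
lemma step {S C : Finset Λ} {H : St T Λ κ → ℝ} {e : ℝ} (he : 0 ≤ e) (hH : ∀ ω, |H ω| ≤ 1)
    (hA : App ex ey d M lab m ((g + 1) * (v + 1)) (cyl (nbd d (2 * D + 1) (S ∩ nbd d D C))ᶜ) H e) :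
    App ex ey d M lab m v (cyl Sᶜ) (Pk ex ey M lab (cyl C) H) (e + 14 * δ) := by
  classical
  obtain ⟨φ, hφ, hφ'⟩ := hA
  set A := S ∩ nbd d D C with hAdef
  set U' : Finset (Fin T × Λ) := cyl (nbd d (2 * D + 1) A)ᶜ with hU'
  let Ψ := Pk ex ey M lab (cyl C) fun ω => φ (res ex ey U' ω)
  have hmv : (m + 1) * v ≤ D := by
    have h1 := hN.2.2.2.2.2.2
    have h2 : v ≤ (f + 1) * (V + 1) := by nlinarith
    exact (Nat.mul_le_mul_left _ h2).trans (by omega)
  have h1 : ∀ ω, wt ex ey M lab ω ≠ 0 → Gd ex ey d M m v ω →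
      |Pk ex ey M lab (cyl C) H ω - Ψ ω| ≤ e + 4 * δ := fun ω h0 h => by
    refine (Ev_near (hM.child _ _) hl he (fun _ => hH _) (fun _ => hφ _)
      fun ω' hω' h' => hφ' _ (wt_glue_ne h0 hω') h').trans ?_
    linarith [step_bad (U := cyl C) hs hSN hN1 hd hM hN hl hR' hg h0 h]
  have h2 : ∀ ω ω', wt ex ey M lab ω ≠ 0 → Gd ex ey d M m v ω → wt ex ey M lab ω' ≠ 0 →
      Gd ex ey d M m v ω' → res ex ey (cyl Sᶜ) ω = res ex ey (cyl Sᶜ) ω' →
      |Ψ ω - Ψ ω'| ≤ 10 * δ := by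
    intro ω ω' h0 h h0' h' hr
    have hc := wt_cl h0
    have hc' := wt_cl h0'
    have far : ∀ {ω : St T Λ κ}, wt ex ey M lab ω ≠ 0 → Gd ex ey d M m v ω → ∀ u : Fin T × Λ,
        u.2 ∉ nbd d D C → (res ex ey (cyl C) ω).2 u = none := by
      intro ω h0 h u hu
      by_contra h3
      obtain ⟨h4, w, hw, h5⟩ := res_snd h3
      exact hu (mem_nbd.2 ⟨w.2, mem_cyl.1 hw, by
        rw [hd.2.1]; exact (h.near hd h0 (h4 ▸ h3) h5).trans hmv⟩)
    have key : ∀ u : Fin T × Λ, u.2 ∉ A →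
        LA ex ey (res ex ey (cyl C) ω) (res ex ey (cyl C) ω') u := fun u hu => by
      by_cases h3 : u.2 ∈ S
      · have h4 : u.2 ∉ nbd d D C := fun h4 => hu (mem_inter.2 ⟨h3, h4⟩)
        exact ⟨by rw [far h0 h u h4, far h0' h' u h4], fun h5 => absurd (far h0 h u h4) h5⟩
      · exact (la_of_res hc hc' hr (mem_cyl.2 (mem_compl.2 h3))).res hc hc'
    have hAA : ∀ x, x ∉ nbd d (2 * D + 1) A → x ∉ A := fun x hx ha =>
      hx (mem_nbd.2 ⟨x, ha, by rw [hd.1]; omega⟩)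
    have hres : res ex ey U' (res ex ey (cyl C) ω) = res ex ey U' (res ex ey (cyl C) ω') :=
      res_ext (hc.rev _).cl (hc'.rev _).cl fun u hu => key u (hAA _ (mem_compl.1 (mem_cyl.1 hu)))
    have e1 : ∀ {ω : St T Λ κ}, Cl ex ey ω.1 ω.2 → Ψ ω =
        Ev ex ey (child ex ey M (cyl C) (res ex ey (cyl C) ω)) lab fun x =>
          φ (comb ex ey (res ex ey U' (res ex ey (cyl C) ω)) (res ex ey U' x)) := fun hc =>
      Ev_congr fun x hx => congrArg φ (res_glue_comb hc hx _)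
    rw [e1 hc, e1 hc', hres]
    have hRc : ∀ η : St T Λ κ, Rate ex ey d (child ex ey M (cyl C) η) (V + 2) K := fun η =>
      hR.of_le le_rfl (fun s => (hM.1 s).1) (child_p _ _)
    refine clusS (A := A) (U := (nbd d (2 * D + 1) A)ᶜ) (fun v h => hs v (child_b h).2.2)
      (fun v h => hs v (child_b h).2.2) hSN hN1 hd (hM.child _ _) (hM.child _ _) ⟨fun s h3 h4 => ?_, fun u hu => ?_⟩ (hRc _) (hRc _)
      (h.child.mono' hv (fun u hu => (child_b hu.2).2.2) fun _ _ _ _ h => h) hN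
      (fun a ha u hu => ?_) hl (φ := fun x => φ (comb ex ey _ x)) Subset.rfl fun _ => hφ _
    · have h5 : Tch ex ey (res ex ey (cyl C) ω).2 s ↔ Tch ex ey (res ex ey (cyl C) ω').2 s := by
        rw [Tch, Tch, (key (s, ex s) h3).1, (key (s, ey s) h4).1]
      simp only [child, ← h5]
      split_ifs with h6 h7 h8 h8
      any_goals rfl
      all_goals
        obtain ⟨z, h9, h10⟩ := h6.exists
        have := (key (s, z) (by rcases h9 with rfl | rfl; exacts [h3, h4])).2 h10 _ rfl h9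
        simp_all
    · simp only [child, (key u hu).1]
    · by_contra h3
      exact mem_compl.1 hu (mem_nbd.2 ⟨a, ha, by rw [hd.2.1]; omega⟩)
  refine ⟨fun x => if h : ∃ ω, (wt ex ey M lab ω ≠ 0 ∧ Gd ex ey d M m v ω) ∧
    res ex ey (cyl Sᶜ) ω = x then Ψ h.choose else 0, fun x => ?_, fun ω h0 h => ?_⟩
  · beta_reduce
    split_ifs
    · exact Pk_abs hM hl (fun _ => hφ _) _
    · simp
  · have h3 : ∃ ω', (wt ex ey M lab ω' ≠ 0 ∧ Gd ex ey d M m v ω') ∧
        res ex ey (cyl Sᶜ) ω' = res ex ey (cyl Sᶜ) ω := ⟨ω, ⟨h0, h⟩, rfl⟩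
    simp only [dif_pos h3]
    have h4 := h2 ω _ h0 h h3.choose_spec.1.1 h3.choose_spec.1.2 h3.choose_spec.2.symm
    linarith [abs_sub_le (Pk ex ey M lab (cyl C) H ω) (Ψ ω) (Ψ h3.choose), h1 ω h0 h]

end step

open Classical in
/-- **the box move**: four layers mix; the speeds `v i` form a tower, the model lives on the at
most `N` slots of `S`. -/
theorem boxS {Cor : Fin 4 → Finset Λ} {S : Finset Λ} {Tf δ : ℝ} {K : ℕ → ℝ} {v g : ℕ → ℕ}
    {N m f D : ℕ} (hs : ∀ v, M.b v ≠ 0 → v.2 ∈ S) (hSN : S.card ≤ N) (hN1 : 1 ≤ N)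
    (hd : Met ex ey d) (hM : M.Ok (Real.exp (-1 / Tf)))
    (hv : ∀ i < 4, v (i + 1) = (g i + 1) * (v i + 1) ∧ Rate ex ey d M (v i + 2) (K i) ∧
      N * Real.exp (40 * K i - g i) ≤ δ)
    (hN : Num N Tf (K 3) δ (v 3) m f D)
    (hC : ∀ x, (∃ s, M.b (s, x) ≠ 0) → ∃ l, x ∉ nbd d (12 * D) (Cor l)) (hl : Lab lab)
    (F : St T Λ κ → ℝ) (hF : ∀ ω, F (res ex ey univ ω) = F ω) :
    Ev ex ey M lab (fun ω => if Gd ex ey d M m (v 0) ω then
      (Pk ex ey M lab (cyl (Cor 0)) (Pk ex ey M lab (cyl (Cor 1))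
        (Pk ex ey M lab (cyl (Cor 2)) (Pk ex ey M lab (cyl (Cor 3)) F))) ω -
          Ev ex ey M lab F) ^ 2 else 0) ≤
      400 * (δ + Pb ex ey M lab fun ω => ¬ Gd ex ey d M m (v 0) ω) *
        Ev ex ey M lab fun ω => F ω ^ 2 := by
  have hδ := hN.2.1
  have hD : 2 ≤ D := by have := hN.2.2.2.2.2.2; omega
  obtain ⟨v0, R0, g0⟩ := hv 0 (by omega)
  obtain ⟨v1, R1, g1⟩ := hv 1 (by omega)
  obtain ⟨v2, R2, g2⟩ := hv 2 (by omega)
  obtain ⟨v3, hR, g3⟩ := hv 3 (by omega)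
  have m2 : v 2 ≤ v 3 := by rw [v2]; nlinarith
  have m1 : v 1 ≤ v 3 := le_trans (by rw [v1]; nlinarith) m2
  have m0 : v 0 ≤ v 3 := le_trans (by rw [v0]; nlinarith) m1
  let Q := fun F : St T Λ κ → ℝ => Pk ex ey M lab (cyl (Cor 0)) (Pk ex ey M lab (cyl (Cor 1))
    (Pk ex ey M lab (cyl (Cor 2)) (Pk ex ey M lab (cyl (Cor 3)) F)))
  have hQ : ∀ F, Ev ex ey M lab (Q F) = Ev ex ey M lab F := fun F => by
    simp only [Q, Ev_Pk hM hl]
  have hP := Pb_nonneg (ex := ex) (ey := ey) bas hM hl fun ω => ¬ Gd ex ey d M m (v 0) ω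
  set P := Pb ex ey M lab fun ω => ¬ Gd ex ey d M m (v 0) ω with hPdef
  have h1 : ∀ φ : St T Λ κ → ℝ, (∀ x, |φ x| ≤ 1) → ∀ ω, wt ex ey M lab ω ≠ 0 →
      Gd ex ey d M m (v 0) ω → |Q (fun ω => φ (res ex ey univ ω)) ω -
        Ev ex ey M lab fun ω => φ (res ex ey univ ω)| ≤ 112 * δ + 2 * P := by
    intro φ hφ ω h0 h
    let nx := fun (S : Finset Λ) (l : Fin 4) => nbd d (2 * D + 1) (S ∩ nbd d D (Cor l))
    have a4 : App ex ey d M lab m (v 4) (cyl (nx (nx (nx (nx univ 0) 1) 2) 3)ᶜ)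
        (fun ω => φ (res ex ey univ ω)) 0 := by
      refine ⟨φ, hφ, fun ω h0 _ => ?_⟩
      have e : rn ex ey (cyl (nx (nx (nx (nx univ 0) 1) 2) 3)ᶜ) ω = rn ex ey univ ω := by
        funext w
        rw [Cd.rn_univ]
        by_cases hw : ω.2 w = none
        · rw [Cd.rn_of_none hw, hw]
        · refine Cd.rn_of_mem (mem_cyl.2 (mem_compl.2 fun h4 => ?_))
          obtain ⟨l, hl⟩ := hC w.2 ⟨w.1, wt_b h0 hw⟩
          simp only [nx, mem_nbd, mem_inter] at h4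
          obtain ⟨x3, ⟨⟨x2, ⟨⟨x1, ⟨⟨x0, ⟨-, c0, m0, d0⟩, e0⟩, c1, m1, d1⟩, e1⟩, c2, m2, d2⟩, e2⟩,
            c3, m3, d3⟩, e3⟩ := h4
          have t := hd.2.2.1
          have t2 := t w.2 x3 x2
          have t1 := t w.2 x2 x1
          have t0 := t w.2 x1 x0
          refine hl (mem_nbd.2 ?_)
          fin_cases l
          exacts [⟨c0, m0, (t _ x0 _).trans (by omega)⟩, ⟨c1, m1, (t _ x1 _).trans (by omega)⟩,
            ⟨c2, m2, (t _ x2 _).trans (by omega)⟩, ⟨c3, m3, (t _ x3 _).trans (by omega)⟩]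
      simp only [res, e, sub_self, abs_zero, le_refl]
    have b4 : ∀ ω, |φ (res ex ey univ ω)| ≤ 1 := fun _ => hφ _
    have b3 := Pk_abs (ex := ex) (ey := ey) (U := cyl (Cor 3)) hM hl b4
    have b2 := Pk_abs (ex := ex) (ey := ey) (U := cyl (Cor 2)) hM hl b3
    have b1 := Pk_abs (ex := ex) (ey := ey) (U := cyl (Cor 1)) hM hl b2
    have b0 := Pk_abs (ex := ex) (ey := ey) (U := cyl (Cor 0)) hM hl b1
    have a3 := step hs hSN hN1 hd hM hR hN hl le_rfl hR g3 le_rfl b4 (v3 ▸ a4)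
    have a2 := step hs hSN hN1 hd hM hR hN hl m2 R2 g2 (by positivity) b3 (v2 ▸ a3)
    have a1 := step hs hSN hN1 hd hM hR hN hl m1 R1 g1 (by positivity) b2 (v1 ▸ a2)
    obtain ⟨ψ, hψ, a0⟩ := step hs hSN hN1 hd hM hR hN hl m0 R0 g0 (by positivity) b1 (v0 ▸ a1)
    have e0 : ∀ ω' : St T Λ κ, res ex ey (cyl univᶜ) ω' = res ex ey (cyl univᶜ) ω := fun ω' => by
      have e : ∀ x : St T Λ κ, rn ex ey (cyl univᶜ) x = fun _ => none := fun x => by
        funext w; simp [rn, cyl]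
      simp only [res, e]
      simp [Tch]
    simp only [e0] at a0
    have h2 := Ev_near hM hl (by positivity) b0 (fun _ => hψ _) a0
    rw [Ev_const bas hM hl, ← hPdef] at h2
    have h3 := a0 ω h0 h
    rw [← hQ, abs_le]
    rw [abs_le] at h2 h3
    constructor <;> linarith [h2.1, h2.2, h3.1, h3.2]
  have hL : ∀ ω, Lin fun φ : St T Λ κ → ℝ => Q (fun ω => φ (res ex ey univ ω)) ω := fun ω =>
    (lin_Pk hM hl _ ω).comp fun ω => (lin_Pk hM hl _ ω).comp fun ω => (lin_Pk hM hl _ ω).comp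
      fun ω => lin_Ev (hM.child _ _) hl fun ω' => res ex ey univ (glue (res ex ey _ ω) ω')
  have h4 : 0 ≤ Ev ex ey M lab fun ω => F ω ^ 2 := Ev_nonneg bas hM hl fun _ => sq_nonneg _
  have h5 : Ev ex ey M lab (fun ω => (112 * δ + 2 * P) * (Q (fun ω => F ω ^ 2) ω +
      Ev ex ey M lab fun ω => F ω ^ 2)) =
        (112 * δ + 2 * P) * (2 * Ev ex ey M lab fun ω => F ω ^ 2) := by
    rw [Ev_mul, Ev_add, hQ, Ev_const bas hM hl, ← two_mul]
  refine le_trans (Ev_mono bas hM hl fun ω h0 => ?_) (h5.le.trans (by nlinarith))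
  obtain ⟨a, ha, ha'⟩ := hL ω
  obtain ⟨b, hb, hb'⟩ := lin_Ev (ex := ex) (ey := ey) hM hl (res ex ey univ)
  have h6 := ha' F
  have h7 := ha' fun ω => F ω ^ 2
  have h8 := hb' F
  have h9 := hb' fun ω => F ω ^ 2
  simp only [hF] at h6 h7 h8 h9
  split_ifs with h
  · change (Q F ω - Ev ex ey M lab F) ^ 2 ≤ _
    rw [h6, h7, h8, h9]
    exact schur ha hb (fun φ hφ => by rw [← ha', ← hb']; exact h1 φ hφ ω h0 h) F
  · refine mul_nonneg (by positivity) (add_nonneg ?_ h4)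
    rw [h7]; exact sum_nonneg fun x _ => mul_nonneg (ha x) (sq_nonneg _)

end Crest.Agent.N337.A
end

-- ▼ part N337/Gas/Bridge

/-!
# Row 337: the models of block (a) as polymer gases; clustering and the box move in gas form
-/

set_option autoImplicit false
set_option linter.unusedSectionVars false

namespace Crest.Agent.N337.Gas

open Finset Equiv Crest.Agent.N337.Rep Crest.Agent.N337.LY0 Crest.Agent.N337.A
  Crest.Agent.N337.A.Cd

variable {Λ : Type} [Fintype Λ] [DecidableEq Λ] {T : ℕ} [NeZero T] (ex ey : Fin T → Λ)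

/-- the law of the down loops of a model. -/
noncomputable def law (M : Mdl T Λ) : Finset (Lp T Λ) → ℝ := nu (qq ex ey M.p) (ub M.b)

/-- the model left after revealing the family `x` of the loops that meet `U`. -/
def chd (M : Mdl T Λ) (U : Finset (Fin T × Λ)) (x : Finset (Lp T Λ)) : Mdl T Λ where
  p := pin ex ey M.p x
  b := kill M.b (U ∪ pts x)

/-- the down loops of a state. -/
noncomputable def dn (ω : St T Λ Unit) : Finset (Lp T Λ) :=
  (univ.filter fun v => ω.2 v ≠ none).image (lp ex ey ω.1)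

/-- trivial labels. -/
def lab1 : Finset (Fin T × Λ) → Unit → ℝ := fun _ _ => 1

/-- number of time-`0` points. -/
def wd (g : Lp T Λ) : ℕ := (univ.filter fun x : Λ => (0, x) ∈ g.2).card

/-- good families for the box move. -/
def GdG (d : Λ → Λ → ℕ) (M : Mdl T Λ) (K v : ℕ) (A : Finset (Lp T Λ)) : Prop :=
  (∀ g ∈ A, wd g ≤ K) ∧
    Slow ex ey d (fun s => Cheap ex ey d M s ∨ cn A s = true) (fun u => M.b u ≠ 0) v

variable {ex ey} {M : Mdl T Λ} {y : ℝ} {U : Finset (Fin T × Λ)} {x : Finset (Lp T Λ)}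
  {ω η : St T Λ Unit}

lemma lab_lab1 : Lab (lab1 (T := T) (Λ := Λ)) := ⟨fun _ _ => zero_le_one, fun _ => by simp [lab1]⟩

lemma cpt_M (h : M.Ok y) : Cpt (qq ex ey M.p) := cpt_qq h.1

lemma ub_M (h : M.Ok y) (g : Lp T Λ) : 0 ≤ ub M.b g := ub_nn (fun v => (h.2.1 v).1) g

lemma pr_law (h : M.Ok y) : Op.Pr (law ex ey M) := pr_nu (cpt_M h) (ub_M h)

lemma kill_mem {b : Fin T × Λ → ℝ} (h : ∀ v, 0 ≤ b v ∧ b v ≤ 1) (U : Finset (Fin T × Λ))
    (v : Fin T × Λ) : 0 ≤ kill b U v ∧ kill b U v ≤ 1 := by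
  unfold kill; split_ifs; exacts [⟨le_rfl, zero_le_one⟩, h v]

lemma kill_le {b : Fin T × Λ → ℝ} (h : ∀ v, 0 ≤ b v) (U : Finset (Fin T × Λ))
    (v : Fin T × Λ) : kill b U v ≤ b v := by
  unfold kill; split_ifs; exacts [h v, le_rfl]

lemma ok_chd (h : M.Ok y) (U : Finset (Fin T × Λ)) (x : Finset (Lp T Λ)) :
    (chd ex ey M U x).Ok y :=
  ⟨pin_mem h.1 x, kill_mem h.2.1 _, fun z => (kill_le (fun v => (h.2.1 v).1) _ _).trans (h.2.2 z)⟩

lemma gZ_eq_Z (M : Mdl T Λ) : gZ (qq ex ey M.p) (ub M.b) = Z ex ey M := by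
  simp only [gZ_qq, prod_L, ub_lp, Z, lw]

/-- the child gas. -/
theorem nu_chd (h : M.Ok y) (hx : qq ex ey M.p x ≠ 0) (hU : ∀ g ∈ x, Hit U g) :
    nu (sh (qq ex ey M.p) x) (off (Hit U) (ub M.b)) = law ex ey (chd ex ey M U x) := by
  rw [sh_qq hx, law]
  refine nu_congr (cpt_qq (pin_mem h.1 x)) fun g hg => ?_
  simp only [chd, ub_kill, off]
  refine if_congr ⟨fun ⟨v, a, b⟩ => ⟨v, a, mem_union_left _ b⟩, fun ⟨v, a, b⟩ => ?_⟩ rfl rfl
  rcases mem_or_disjoint hx hg with h1 | h1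
  · exact hU g h1
  · exact ⟨v, a, (mem_union.1 b).resolve_right (disjoint_left.1 h1 a)⟩

/-- **the conditional law given the loops that meet `U`.** -/
theorem ex_cond_law (h : M.Ok y) (hx : Op.mass (law ex ey M) (filter (Hit U)) x ≠ 0)
    (F : Finset (Lp T Λ) → ℝ) : Op.ex (Op.cond (law ex ey M) (filter (Hit U)) x) F =
      Op.ex (law ex ey (chd ex ey M U x)) fun A => F (x ∪ A) := by
  obtain ⟨h1, h2, -⟩ := mass_supp (cpt_M h) hx
  rw [law, ex_cond (cpt_M h) (ub_M h) hx, nu_chd h h1 h2]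


/-! ### states and families -/

lemma mem_dn {g : Lp T Λ} : g ∈ dn ex ey ω ↔ ∃ v, ω.2 v ≠ none ∧ lp ex ey ω.1 v = g := by
  simp only [dn, mem_image, mem_filter, mem_univ, true_and]

lemma dn_sub (ω : St T Λ Unit) : dn ex ey ω ⊆ L ex ey ω.1 := fun _ h =>
  let ⟨v, _, e⟩ := mem_dn.1 h; mem_L.2 ⟨v, e⟩

lemma mem_pts_dn (h : Cl ex ey ω.1 ω.2) {v : Fin T × Λ} : v ∈ pts (dn ex ey ω) ↔ ω.2 v ≠ none := by
  rw [mem_pts]
  refine ⟨fun ⟨g, hg, hv⟩ => ?_, fun hv => ⟨_, mem_dn.2 ⟨v, hv, rfl⟩, self_mem_obv _ _⟩⟩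
  obtain ⟨w, hw, rfl⟩ := mem_dn.1 hg
  rwa [h.eq_of_o (mem_obv.1 hv)]

lemma tch_dn (h : Cl ex ey ω.1 ω.2) {s : Fin T} :
    tch ex ey (pts (dn ex ey ω)) s ↔ Tch ex ey ω.2 s := by simp only [tch, Tch, mem_pts_dn h]

lemma sum_wt_dn (M : Mdl T Λ) (F : Finset (Lp T Λ) → ℝ) :
    ∑ ω, wt ex ey M lab1 ω * F (dn ex ey ω) = ∑ A, gw (qq ex ey M.p) (ub M.b) A * F A := by
  classical
  rw [sum_gw, Fintype.sum_prod_type]
  refine sum_congr rfl fun ξ _ => ?_
  have e : ∀ n : Fin T × Λ → Option Unit, wt ex ey M lab1 (ξ, n) * F (dn ex ey (ξ, n)) =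
      if ∀ v, n (Sg ex ey ξ v) = n v then
        Pw M.p ξ * ((∏ v, if n v = none then 1 else M.b v) * F (dn ex ey (ξ, n))) else 0 := by
    intro n
    by_cases h : Cl ex ey ξ n
    · rw [wt_of_cl (ω := (ξ, n)) h, if_pos (show ∀ v, n (Sg ex ey ξ v) = n v from h), dw,
        prod_eq_one (s := (univ : Finset (Orb _))) fun g _ => by
          cases (ξ, n).2 (bp g) <;> rfl]
      ring
    · rw [if_neg (show ¬ ∀ v, n (Sg ex ey ξ v) = n v from h), wt, if_neg h, zero_mul]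
  simp only [e]
  rw [sum_inv (Sg ex ey ξ) fun n => Pw M.p ξ *
    ((∏ v, if n v = none then 1 else M.b v) * F (dn ex ey (ξ, n))), ← mul_sum]
  congr 1
  have hd : ∀ c : Orb (Sg ex ey ξ) → Option Unit, dn ex ey (ξ, c ∘ o (Sg ex ey ξ)) =
      (univ.filter fun g => c g ≠ none).image fun g => lp ex ey ξ (bp g) := fun c => by
    ext g
    simp only [mem_dn, mem_image, mem_filter, mem_univ, true_and, Function.comp]
    exact ⟨fun ⟨v, a, b⟩ => ⟨o _ v, a, (lp_eq_iff.2 (o_bp _)).trans b⟩,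
      fun ⟨c, a, b⟩ => ⟨bp c, by rwa [o_bp], b⟩⟩
  refine sum_bij (fun c _ => dn ex ey (ξ, c ∘ o (Sg ex ey ξ))) (fun c _ => mem_powerset.2 (dn_sub _))
    (fun c _ c' _ h => ?_) (fun A hA => ?_) fun c _ => ?_
  · rw [hd, hd] at h
    have h' := image_injective (fun _ _ => lp_bp_inj) h
    funext g
    have := (Finset.ext_iff.1 h') g
    simp only [mem_filter, mem_univ, true_and] at this
    revert this; cases c g <;> cases c' g <;> simp
  · refine ⟨fun g => if lp ex ey ξ (bp g) ∈ A then some () else none, mem_univ _, ?_⟩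
    rw [hd]; ext g
    simp only [mem_image, mem_filter, mem_univ, true_and, ne_eq, ite_eq_right_iff, reduceCtorEq,
      imp_false, not_not]
    refine ⟨fun ⟨c, a, b⟩ => b ▸ a, fun hg => ?_⟩
    have := mem_powerset.1 hA hg
    rw [L_eq_image, mem_image] at this
    obtain ⟨c, -, rfl⟩ := this
    exact ⟨c, hg, rfl⟩
  · congr 1
    rw [hd, prod_image fun _ _ _ _ => lp_bp_inj, prod_filter, ← prod_pr (Sg ex ey ξ)]
    refine prod_congr rfl fun g _ => ?_
    by_cases h : c g = none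
    · rw [if_neg (not_not.2 h)]; exact pr_one fun v hv => if_pos (by simp [hv, h])
    · rw [if_pos h, ub_lp]; exact pr_congr fun v hv => if_neg (by simp [hv, h])

/-- **expectations of functions of the down loops.** -/
theorem Ev_dn (M : Mdl T Λ) (F : Finset (Lp T Λ) → ℝ) :
    Ev ex ey M lab1 (fun ω => F (dn ex ey ω)) = Op.ex (law ex ey M) F := by
  rw [Ev, sum_wt_dn, law, ex_nu, gZ_eq_Z]

lemma lp_eq_of_coin (hη : Cl ex ey η.1 η.2) {ξ : Fin T → Bool}
    (hc : ∀ s, Tch ex ey η.2 s → ξ s = η.1 s) {v : Fin T × Λ} (hv : η.2 v ≠ none) :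
    lp ex ey ξ v = lp ex ey η.1 v :=
  lp_congr fun s hs => hc s (hs.imp (fun h => by rwa [hη.eq_of_o (mem_obv.1 h)])
    fun h => by rwa [hη.eq_of_o (mem_obv.1 h)])

lemma dn_res (h : Cl ex ey ω.1 ω.2) (U : Finset (Fin T × Λ)) :
    dn ex ey (res ex ey U ω) = (dn ex ey ω).filter (Hit U) := by
  have e : ∀ v, rn ex ey U ω v ≠ none → lp ex ey (res ex ey U ω).1 v = lp ex ey ω.1 v := by
    intro v hv
    have hc : ∀ s, Tch ex ey (res ex ey U ω).2 s → ω.1 s = (res ex ey U ω).1 s :=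
      fun s hs => (res_fst_of_tch hs).symm
    exact (lp_eq_of_coin (h.rev U).cl hc hv).symm
  ext g
  simp only [mem_dn, mem_filter, Cd.res_snd]
  constructor
  · rintro ⟨v, hv, rfl⟩
    obtain ⟨⟨u, hu, a⟩, b⟩ := rn_of_ne hv
    rw [e v hv]
    exact ⟨⟨v, b ▸ hv, rfl⟩, u, mem_obv.2 a, hu⟩
  · rintro ⟨⟨v, hv, rfl⟩, u, a, hu⟩
    have : rn ex ey U ω v ≠ none := by unfold rn; rwa [if_pos ⟨u, hu, mem_obv.1 a⟩]
    exact ⟨v, this, e v this⟩

lemma child_eq (hη : Cl ex ey η.1 η.2) (M : Mdl T Λ) (U : Finset (Fin T × Λ)) :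
    child ex ey M U η = chd ex ey M U (dn ex ey η) := by
  unfold child chd
  congr 1
  · funext s
    simp only [pin, cn_eq (dn_sub η), tch_dn hη]
    split_ifs <;> rfl
  · funext v
    simp only [kill, mem_union, mem_pts_dn hη]

lemma dn_glue (hf : Fit ex ey U η ω) (hη : Cl ex ey η.1 η.2) :
    dn ex ey (glue η ω) = dn ex ey η ∪ dn ex ey ω := by
  ext g
  simp only [mem_dn, mem_union, glue_ne_none, glue_fst]
  constructor
  · rintro ⟨v, hv | hv, rfl⟩
    · exact Or.inl ⟨v, hv, (lp_eq_of_coin hη hf.coin hv).symm⟩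
    · exact Or.inr ⟨v, hv, rfl⟩
  · rintro (⟨v, hv, rfl⟩ | ⟨v, hv, rfl⟩)
    · exact ⟨v, Or.inl hv, lp_eq_of_coin hη hf.coin hv⟩
    · exact ⟨v, Or.inr hv, rfl⟩

lemma law_dn_ne (h : M.Ok y) (hw : wt ex ey M lab1 ω ≠ 0) : law ex ey M (dn ex ey ω) ≠ 0 := by
  classical
  have h0 : ∀ ω, 0 ≤ wt ex ey M lab1 ω := ((bas Λ T ex ey M y h).2.2.2.2 Unit lab1 lab_lab1).1
  have h1 := sum_wt_dn (ex := ex) (ey := ey) M fun A => if A = dn ex ey ω then 1 else 0
  have h2 := single_le_sum (f := fun ω' => wt ex ey M lab1 ω' *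
    if dn ex ey ω' = dn ex ey ω then 1 else 0)
    (fun ω' _ => mul_nonneg (h0 ω') (by split_ifs <;> norm_num)) (mem_univ ω)
  rw [h1] at h2
  simp only [mul_ite, mul_one, mul_zero, if_true, sum_ite_eq', mem_univ] at h2
  exact div_ne_zero (((h0 ω).lt_of_ne' hw).trans_le h2).ne' (gZ_pos (cpt_M h) (ub_M h)).ne'

/-- `Pk` is the conditional expectation of the gas. -/
lemma Pk_dn (h : M.Ok y) (U : Finset (Fin T × Λ)) {G : St T Λ Unit → ℝ} {F : Finset (Lp T Λ) → ℝ}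
    (hG : ∀ ω, wt ex ey M lab1 ω ≠ 0 → G ω = F (dn ex ey ω)) (ω : St T Λ Unit)
    (hw : wt ex ey M lab1 ω ≠ 0) : A.Pk ex ey M lab1 U G ω =
      Op.ap (Op.ce (law ex ey M) (filter (Hit U))) F (dn ex ey ω) := by
  have hc := cl_of_wt hw
  have h1 := law_dn_ne h hw
  rw [Op.ap_ce_ae (pr_law h).nn _ h1, ex_cond_law h (Op.mass_ne (pr_law h).nn h1), ← Ev_dn, A.Pk,
    ← dn_res hc, ← child_eq (hc.rev U).cl]
  exact Ev_congr fun ω' hw' => by
    rw [hG _ (wt_glue_ne hw hw'), dn_glue (fit_of_wt hw') (hc.rev U).cl]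

lemma gd_dn (h : Cl ex ey ω.1 ω.2) (d : Λ → Λ → ℕ) (M : Mdl T Λ) (K v : ℕ) :
    Gd ex ey d M K v ω ↔ GdG ex ey d M K v (dn ex ey ω) := by
  have e : ∀ u, wd (lp ex ey ω.1 u) = wind ex ey ω.1 u := fun u => by
    simp only [wd, wind, lp_snd, mem_obv]
  refine and_congr ⟨fun H g hg => ?_, fun H u hu => e u ▸ H _ (mem_dn.2 ⟨u, hu, rfl⟩)⟩ ?_
  · obtain ⟨u, hu, rfl⟩ := mem_dn.1 hg
    exact e u ▸ H u hu
  · have : ActW ex ey d M ω = fun s => Cheap ex ey d M s ∨ cn (dn ex ey ω) s = true := by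
      funext s
      simp only [ActW, cn_eq (dn_sub ω), tch_dn h]
      split_ifs with hs <;> simp [hs]
    rw [this]


lemma Pb_le_dn (h : M.Ok y) {E : St T Λ Unit → Prop} {S : Finset (Lp T Λ) → Prop} [DecidablePred S]
    (hS : ∀ ω, wt ex ey M lab1 ω ≠ 0 → E ω → S (dn ex ey ω)) :
    Pb ex ey M lab1 E ≤ Op.ex (law ex ey M) (Op.ind S) := by
  rw [← Ev_dn, Pb]
  refine Ev_mono bas h lab_lab1 fun ω hw => ?_
  unfold Op.ind
  split_ifs with a b b
  exacts [le_rfl, absurd (hS ω hw a) b, zero_le_one, le_rfl]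

lemma dn_le_Pb (h : M.Ok y) {E : St T Λ Unit → Prop} {S : Finset (Lp T Λ) → Prop} [DecidablePred S]
    (hS : ∀ ω, wt ex ey M lab1 ω ≠ 0 → S (dn ex ey ω) → E ω) :
    Op.ex (law ex ey M) (Op.ind S) ≤ Pb ex ey M lab1 E := by
  rw [← Ev_dn, Pb]
  refine Ev_mono bas h lab_lab1 fun ω hw => ?_
  unfold Op.ind
  split_ifs with a b b
  exacts [le_rfl, absurd (hS ω hw a) b, zero_le_one, le_rfl]

lemma res_univ_idem (ω : St T Λ Unit) : res ex ey univ (res ex ey univ ω) = res ex ey univ ω := by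
  have e : ∀ ω : St T Λ Unit, res ex ey univ ω =
      (fun s => if Tch ex ey ω.2 s then ω.1 s else false, ω.2) := fun ω => by
    unfold res; rw [rn_univ]
  rw [e, e ω]
  refine Prod.ext (funext fun s => ?_) rfl
  dsimp only
  split_ifs <;> rfl

lemma dn_res_univ (h : Cl ex ey ω.1 ω.2) : dn ex ey (res ex ey univ ω) = dn ex ey ω := by
  rw [dn_res h, filter_true_of_mem]
  intro g hg
  obtain ⟨v, -, rfl⟩ := mem_dn.1 hg
  exact ⟨v, self_mem_obv _ _, mem_univ _⟩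

lemma nsq_ps_le {Ω : Type} [Fintype Ω] [DecidableEq Ω] {μ : Ω → ℝ} (hμ : Op.Pr μ) {S : Ω → Prop}
    [DecidablePred S] (hS : Op.ex μ (Op.ind S) < 1) {f : Ω → ℝ} (hf : Op.ex μ f = 0) :
    Op.nsq μ (Op.ap (Op.ps S μ) f) ≤ Op.ex μ fun ω => if S ω then 0 else f ω ^ 2 := by
  set c := Op.exc S μ f
  have h1 := hμ.ex_ps_aux hS f
  have e : (fun ω => if S ω then 0 else f ω ^ 2) = fun ω => Op.ap (Op.ps S μ) f ω ^ 2 +
      (2 * c * ((1 - Op.ind S ω) * (f ω - c)) + c ^ 2 * (1 - Op.ind S ω)) := by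
    funext ω; rw [Op.ap_ps, hf]; unfold Op.ind; split_ifs <;> ring
  rw [e, Op.ex_add, Op.ex_add, Op.ex_mul, Op.ex_mul, h1, hμ.ex_compl, ← Op.nsq_eq_ex]
  nlinarith [sq_nonneg c]

open Classical in
/-- **the box move in gas form** (transfer of any bound in the form of `BoxStmt`). -/
theorem box_tr {d : Λ → Λ → ℕ} {U : Fin 4 → Finset (Fin T × Λ)} {δ : ℝ} {m v : ℕ} (h : M.Ok y)
    (hδ : 0 ≤ δ) (H : ∀ F : St T Λ Unit → ℝ, (∀ ω, F (res ex ey univ ω) = F ω) →
      Ev ex ey M lab1 (fun ω => if Gd ex ey d M m v ω then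
        (A.Pk ex ey M lab1 (U 0) (A.Pk ex ey M lab1 (U 1)
          (A.Pk ex ey M lab1 (U 2) (A.Pk ex ey M lab1 (U 3) F))) ω -
            Ev ex ey M lab1 F) ^ 2 else 0) ≤
        400 * (δ + Pb ex ey M lab1 fun ω => ¬ Gd ex ey d M m v ω) *
          Ev ex ey M lab1 fun ω => F ω ^ 2)
    (S : Finset (Lp T Λ) → Prop) (hS : ∀ A, law ex ey M A ≠ 0 → ¬S A → GdG ex ey d M m v A)
    (he : δ + Op.ex (law ex ey M) (Op.ind S) ≤ 1 / 1600) :
    Op.Con (law ex ey M) (Op.word [Op.ps S (law ex ey M),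
      Op.ce (law ex ey M) (filter (Hit (U 0))), Op.ce (law ex ey M) (filter (Hit (U 1))),
      Op.ce (law ex ey M) (filter (Hit (U 2))), Op.ce (law ex ey M) (filter (Hit (U 3)))])
      (1 / 2) := by
  intro F hF
  have hp := pr_law (ex := ex) (ey := ey) h
  have k := fun U : Finset (Fin T × Λ) => (Op.proj_ce hp.nn (filter (Hit U))).ker
  simp only [Op.word, Op.ap_comp, Op.ap_idk]
  refine (nsq_ps_le hp (by linarith) (by simp only [(k _).ex_ap, hF])).trans ?_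
  have hb := H (fun ω => F (dn ex ey (res ex ey univ ω))) fun ω => by rw [res_univ_idem]
  have h0 : ∀ ω, wt ex ey M lab1 ω ≠ 0 → F (dn ex ey (res ex ey univ ω)) = F (dn ex ey ω) :=
    fun ω hw => by rw [dn_res_univ (cl_of_wt hw)]
  have h4 := Pk_dn h (U 0) (Pk_dn h (U 1) (Pk_dn h (U 2) (Pk_dn h (U 3) h0)))
  rw [Ev_congr h0, Ev_dn, hF, Ev_congr (F := fun ω => F (dn ex ey (res ex ey univ ω)) ^ 2)
    (G := fun ω => F (dn ex ey ω) ^ 2) fun ω hw => by rw [h0 ω hw], Ev_dn M fun A => F A ^ 2,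
    ← Op.nsq_eq_ex] at hb
  have h5 : Pb ex ey M lab1 (fun ω => ¬ Gd ex ey d M m v ω) ≤ Op.ex (law ex ey M) (Op.ind S) :=
    Pb_le_dn h fun ω hw hn => by
      by_contra h6
      exact hn ((gd_dn (cl_of_wt hw) d M m v).2 (hS _ (law_dn_ne h hw) h6))
  have h6 := Op.nsq_nn hp.nn F
  refine le_trans ?_ (hb.trans (by nlinarith))
  rw [← Ev_dn]
  refine Ev_mono bas h lab_lab1 fun ω hw => ?_
  rw [h4 ω hw, sub_zero]
  split_ifs with a b b
  exacts [sq_nonneg _, le_rfl, le_rfl,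
    absurd ((gd_dn (cl_of_wt hw) d M m v).2 (hS _ (law_dn_ne h hw) a)) b]


end Crest.Agent.N337.Gas
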