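import Crest.Agent.N337.Gas.Abs

/-!
# Row 337: labelled polymer gases

A labelled gas is a gas on `Γ × κ` with compatibility weights `qL q`; `fg` forgets the labels.
-/

set_option autoImplicit false
set_option linter.unusedSectionVars false

namespace Crest.Agent.N337.Gas

open Finset Crest.Agent.N337.Op

variable {Γ κ : Type} [Fintype Γ] [DecidableEq Γ] [Fintype κ] [DecidableEq κ]

/-- forget the labels. -/
def fg (A : Finset (Γ × κ)) : Finset Γ := A.image Prod.fst

/-- every polymer carries one label. -/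
def Inj (A : Finset (Γ × κ)) : Prop := ∀ x ∈ A, ∀ y ∈ A, x.1 = y.1 → x = y

instance (A : Finset (Γ × κ)) : Decidable (Inj A) := by unfold Inj; infer_instance

/-- compatibility weights of labelled families. -/
def qL (q : Finset Γ → ℝ) (A : Finset (Γ × κ)) : ℝ := if Inj A then q (fg A) else 0

/-- total weight of a polymer. -/
def tot (u : Γ × κ → ℝ) (g : Γ) : ℝ := ∑ a, u (g, a)

variable {q : Finset Γ → ℝ} {u : Γ × κ → ℝ} {x A B : Finset (Γ × κ)}


lemma mem_fg {g : Γ} : g ∈ fg A ↔ ∃ a, (g, a) ∈ A := by simp [fg]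

lemma mem_fg_of {y : Γ × κ} (h : y ∈ A) : y.1 ∈ fg A := mem_image_of_mem _ h

lemma fg_union (A B : Finset (Γ × κ)) : fg (A ∪ B) = fg A ∪ fg B := image_union _ _

@[simp] lemma fg_empty : fg (∅ : Finset (Γ × κ)) = ∅ := rfl

lemma fg_mono (h : A ⊆ B) : fg A ⊆ fg B := image_subset_image h

lemma fg_filter (Q : Γ → Prop) [DecidablePred Q] (A : Finset (Γ × κ)) :
    fg (A.filter fun y => Q y.1) = (fg A).filter Q := by
  ext g; simp only [mem_fg, mem_filter]; tauto

lemma Inj.mono (hB : Inj B) (h : A ⊆ B) : Inj A := fun x hx y hy => hB x (h hx) y (h hy)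

lemma Inj.fg_erase (hA : Inj A) {y : Γ × κ} (hy : y ∈ A) : fg (A.erase y) = (fg A).erase y.1 := by
  ext g
  simp only [mem_fg, mem_erase]
  constructor
  · rintro ⟨a, h1, h2⟩
    exact ⟨fun e => h1 (hA _ h2 _ hy e), a, h2⟩
  · rintro ⟨h1, a, h2⟩
    exact ⟨a, fun e => h1 (congrArg Prod.fst e), h2⟩

lemma Inj.sum_fg (hA : Inj A) (f : Γ → ℝ) : ∑ g ∈ fg A, f g = ∑ y ∈ A, f y.1 :=
  sum_image fun x hx y hy => hA x hx y hy


lemma qL_supp (h : qL q A ≠ 0) : Inj A ∧ q (fg A) ≠ 0 := by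
  unfold qL at h; split_ifs at h with h1
  exacts [⟨h1, h⟩, absurd rfl h]

lemma Cpt.qL (hq : Cpt q) : Cpt (qL (κ := κ) q) where
  nn A := by unfold Gas.qL; split_ifs; exacts [hq.nn _, le_rfl]
  empty := by rw [Gas.qL, if_pos (by simp [Inj]), fg_empty, hq.empty]
  anti A B h := by
    unfold Gas.qL
    by_cases hB : Inj B
    · rw [if_pos hB, if_pos (hB.mono h)]; exact hq.anti _ _ (fg_mono h)
    · rw [if_neg hB]; split_ifs; exacts [hq.nn _, le_rfl]

lemma sum_labels (u : Γ × κ → ℝ) (A : Finset Γ) :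
    ∑ B : Finset (Γ × κ), (if Inj B ∧ fg B = A then ∏ y ∈ B, u y else 0) = ∏ g ∈ A, tot u g := by
  induction A using Finset.induction_on with
  | empty =>
    rw [sum_eq_single ∅ (fun B _ h => if_neg fun h' => h (image_eq_empty.1 h'.2)) (by simp)]
    simp [Inj]
  | insert g A hg ih =>
    rw [prod_insert hg, ← ih, tot, sum_mul_sum, ← sum_filter, ← sum_product']
    simp only [mul_ite, mul_zero, ← sum_filter]
    symm
    refine sum_bij (fun p _ => insert (g, p.1) p.2) ?_ ?_ ?_ ?_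
    · rintro ⟨a, B⟩ h
      simp only [mem_filter, mem_product, mem_univ, true_and] at h ⊢
      refine ⟨fun x hx y hy e => ?_, by rw [fg, image_insert, ← fg, h.2]⟩
      rw [mem_insert] at hx hy
      rcases hx with rfl | hx <;> rcases hy with rfl | hy
      · rfl
      · exact absurd (h.2 ▸ mem_fg_of hy) (e ▸ hg)
      · exact absurd (h.2 ▸ mem_fg_of hx) (e.symm ▸ hg)
      · exact h.1 x hx y hy e
    · rintro ⟨a, B⟩ h ⟨a', B'⟩ h' e
      simp only [mem_filter, mem_product, mem_univ, true_and] at h h' e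
      have n1 : ∀ b, (g, b) ∉ B := fun b hb => hg (h.2 ▸ mem_fg_of hb)
      have n2 : ∀ b, (g, b) ∉ B' := fun b hb => hg (h'.2 ▸ mem_fg_of hb)
      have e1 : a = a' := by
        have : (g, a) ∈ insert (g, a') B' := e ▸ mem_insert_self _ _
        simpa [n2] using this
      subst e1
      rw [← erase_insert (n1 a), e, erase_insert (n2 a)]
    · intro B h
      simp only [mem_filter, mem_univ, true_and] at h
      obtain ⟨a, ha⟩ := mem_fg.1 (h.2 ▸ mem_insert_self g A)
      refine ⟨(a, B.erase (g, a)), ?_, insert_erase ha⟩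
      simp only [mem_filter, mem_product, mem_univ, true_and]
      exact ⟨h.1.mono (erase_subset _ _), by rw [h.1.fg_erase ha, h.2, erase_insert hg]⟩
    · rintro ⟨a, B⟩ h
      simp only [mem_filter, mem_product, mem_univ, true_and] at h
      rw [prod_insert fun hb => hg (h.2 ▸ mem_fg_of hb)]

lemma sum_forget (q : Finset Γ → ℝ) (u : Γ × κ → ℝ) (F : Finset Γ → ℝ) :
    ∑ B, gw (qL q) u B * F (fg B) = ∑ A, gw q (tot u) A * F A := by
  simp only [gw, ← sum_labels, mul_sum, sum_mul]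
  rw [sum_comm]
  refine sum_congr rfl fun B _ => ?_
  rw [sum_eq_single (fg B) (fun A _ h => by simp [Ne.symm h]) (by simp), qL]
  split_ifs with h1 h2 h2 <;> simp_all

lemma gZ_forget (q : Finset Γ → ℝ) (u : Γ × κ → ℝ) : gZ (qL q) u = gZ q (tot u) := by
  simpa only [mul_one, gZ] using sum_forget q u fun _ => 1

/-- **forgetting the labels.** -/
theorem ex_forget (q : Finset Γ → ℝ) (u : Γ × κ → ℝ) (F : Finset Γ → ℝ) :
    ex (nu (qL q) u) (fun B => F (fg B)) = ex (nu q (tot u)) F := by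
  rw [ex_nu, ex_nu, sum_forget, gZ_forget]

lemma var_forget (q : Finset Γ → ℝ) (u : Γ × κ → ℝ) (F : Finset Γ → ℝ) :
    var (nu (qL q) u) (fun B => F (fg B)) = var (nu q (tot u)) F := by
  simp only [var, nsq_eq_ex, ex_forget]
  exact ex_forget q u fun A => (F A - ex (nu q (tot u)) F) ^ 2

lemma Dir_forget (q : Finset Γ → ℝ) (u : Γ × κ → ℝ) (F : Finset Γ → ℝ) :
    Dir (nu (qL q) u) (fun B => F (fg B)) = Dir (nu q (tot u)) F := by
  rw [Dir, Dir, ← ex_forget]
  refine ex_congr fun B h => ?_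
  have hB := (qL_supp (nu_supp h).1).1
  rw [hB.sum_fg]
  exact sum_congr rfl fun y hy => by rw [hB.fg_erase hy]

section reveal
variable {Q : Γ × κ → Prop} [DecidablePred Q]

/-- the child of a labelled gas is a labelled gas. -/
theorem nu_sh_qL (hx : Inj x) (hQ : ∀ y ∈ x, Q y) : nu (sh (qL q) x) (off Q u) =
    nu (qL (sh q (fg x))) (off (fun y => Q y ∨ y.1 ∈ fg x) u) := by
  refine nu_congr' fun A => ?_
  rw [gw_off, gw_off]
  by_cases h1 : A.filter Q = ∅
  swap
  · rw [if_neg h1, if_neg fun h => h1 ?_]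
    rw [filter_eq_empty_iff] at h ⊢
    exact fun y hy hq => h hy (Or.inl hq)
  rw [if_pos h1]
  rw [filter_eq_empty_iff] at h1
  split_ifs with h2
  · rw [filter_eq_empty_iff] at h2
    have e : Inj (x ∪ A) ↔ Inj A := by
      refine ⟨fun h => h.mono subset_union_right, fun h a ha b hb e => ?_⟩
      rw [mem_union] at ha hb
      rcases ha with ha | ha <;> rcases hb with hb | hb
      · exact hx a ha b hb e
      · exact absurd (Or.inr (e ▸ mem_fg_of ha)) (h2 hb)
      · exact absurd (Or.inr (e.symm ▸ mem_fg_of hb)) (h2 ha)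
      · exact h a ha b hb e
    simp only [gw, sh, qL, e, hx, if_true, fg_union]
    split_ifs <;> simp
  · obtain ⟨y, hy⟩ := nonempty_iff_ne_empty.2 h2
    rw [mem_filter] at hy
    obtain ⟨a, ha⟩ := mem_fg.1 (hy.2.resolve_left (h1 hy.1))
    rw [gw, sh, qL, if_neg, zero_div, zero_mul]
    intro h
    have := h _ (mem_union_left _ ha) _ (mem_union_right _ hy.1) rfl
    exact h1 hy.1 (this ▸ hQ _ ha)

/-- conditional law of the labelled family. -/
theorem ex_cond_lab (hq : Cpt q) (hu : ∀ g, 0 ≤ u g) (h : mass (nu (qL q) u) (filter Q) x ≠ 0)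
    (G : Finset (Γ × κ) → ℝ) : ex (cond (nu (qL q) u) (filter Q) x) G =
      ex (nu (qL (sh q (fg x))) (off (fun y => Q y ∨ y.1 ∈ fg x) u)) fun B => G (x ∪ B) := by
  obtain ⟨h1, h2, -⟩ := mass_supp hq.qL h
  rw [ex_cond hq.qL hu h, nu_sh_qL (qL_supp h1).1 h2]



end reveal

end Crest.Agent.N337.Gas
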